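import Vale.Agent.P002.H326J.DefsV

/-!
# Definitions for the theorem on components with one integral point
-/

namespace Vale.Agent.P002.H85

open Matrix Vale.Agent.P002R.Orb

variable {ι : Type} {r : ℕ}

/-- The ideal of the polynomials in the matrix entries which vanish on `T`. -/
def vanIdeal (T : Set (ι → SpecialLinearGroup (Fin r) ℂ)) :
    Ideal (MvPolynomial (ι × Fin r × Fin r) ℂ) where
  carrier := {F | ∀ X ∈ T, value F X = 0}
  add_mem' {F G} hF hG X hX := by
    have h : value (F + G) X = value F X + value G X := MvPolynomial.eval₂_add ..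
    rw [h, hF X hX, hG X hX, add_zero]
  zero_mem' X _ := MvPolynomial.eval₂_zero ..
  smul_mem' F G hG X hX := by
    have h : value (F • G) X = value F X * value G X := MvPolynomial.eval₂_mul ..
    rw [h, hG X hX, mul_zero]

/-- `I` is the prime ideal of an irreducible component of the Zariski closure of `T`. -/
def IsComponent (T : Set (ι → SpecialLinearGroup (Fin r) ℂ))
    (I : Ideal (MvPolynomial (ι × Fin r × Fin r) ℂ)) : Prop :=
  I ∈ (vanIdeal T).minimalPrimes

/-- `X` is a zero of `I`. -/
def IsZero (I : Ideal (MvPolynomial (ι × Fin r × Fin r) ℂ))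
    (X : ι → SpecialLinearGroup (Fin r) ℂ) : Prop :=
  ∀ F ∈ I, value F X = 0

/-- The part of `T` on the component with prime ideal `I`. -/
def part (T : Set (ι → SpecialLinearGroup (Fin r) ℂ))
    (I : Ideal (MvPolynomial (ι × Fin r × Fin r) ℂ)) :
    Set (ι → SpecialLinearGroup (Fin r) ℂ) :=
  {X ∈ T | IsZero I X}

/-- The closure of `S` in `T` for the Zariski topology of `M_r(X)(ℂ)`, whose closed sets are the
common zero sets of invariant functions. -/
def closureIn (R : Set (FreeGroup ι)) (T S : Set (ι → SpecialLinearGroup (Fin r) ℂ)) :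
    Set (ι → SpecialLinearGroup (Fin r) ℂ) :=
  {X ∈ T | ∀ F : MvPolynomial (ι × Fin r × Fin r) ℂ, IsInvariant R F →
    (∀ X' ∈ S, value F X' = 0) → value F X = 0}

/-- `S` is irreducible for the Zariski topology of `M_r(X)(ℂ)`. -/
def IsIrr (R : Set (FreeGroup ι)) (S : Set (ι → SpecialLinearGroup (Fin r) ℂ)) : Prop :=
  S.Nonempty ∧ ∀ F G : MvPolynomial (ι × Fin r × Fin r) ℂ, IsInvariant R F → IsInvariant R G →
    (∀ X ∈ S, value F X = 0 ∨ value G X = 0) →
      (∀ X ∈ S, value F X = 0) ∨ ∀ X ∈ S, value G X = 0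

/-- `V` is an irreducible component of `T` for the Zariski topology of `M_r(X)(ℂ)`: a maximal
irreducible closed subset. -/
def IsIrrComp (R : Set (FreeGroup ι)) (T V : Set (ι → SpecialLinearGroup (Fin r) ℂ)) : Prop :=
  closureIn R T V = V ∧ IsIrr R V ∧ ∀ V' : Set (ι → SpecialLinearGroup (Fin r) ℂ),
    closureIn R T V' = V' → IsIrr R V' → V ⊆ V' → V' = V

/-- The integral points of `T`. -/
def intPoints (R : Set (FreeGroup ι)) (T : Set (ι → SpecialLinearGroup (Fin r) ℂ)) :
    Set (ι → SpecialLinearGroup (Fin r) ℂ) :=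
  {X ∈ T | ∃ L : IntermediateField ℚ ℂ, FiniteDimensional ℚ L ∧ IsIntegralPoint R L X}

/-- The representations in `T` with entries in the ring of integers of some number field of degree at
most `D`. -/
def repsDeg (D : ℕ) (T : Set (ι → SpecialLinearGroup (Fin r) ℂ)) :
    Set (ι → SpecialLinearGroup (Fin r) ℂ) :=
  {X ∈ T | ∃ L : IntermediateField ℚ ℂ, FiniteDimensional ℚ L ∧ Module.finrank ℚ L ≤ D ∧
    IsIntegralRep L X}

/-- The integral points of `T` (over all number fields) are Zariski dense in the image of `T` in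
`M_r(X)(ℂ)`. -/
def IsDenseAll (R : Set (FreeGroup ι)) (T : Set (ι → SpecialLinearGroup (Fin r) ℂ)) : Prop :=
  ∀ F : MvPolynomial (ι × Fin r × Fin r) ℂ, IsInvariant R F →
    (∀ X ∈ T, ∀ L : IntermediateField ℚ ℂ, FiniteDimensional ℚ L → IsIntegralPoint R L X →
      value F X = 0) → ∀ X ∈ T, value F X = 0

/-- The integral points of `T` defined over number fields of degree at most `D` are Zariski dense in
the image of `T` in `M_r(X)(ℂ)`. -/
def IsDenseDeg (R : Set (FreeGroup ι)) (D : ℕ)
    (T : Set (ι → SpecialLinearGroup (Fin r) ℂ)) : Prop :=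
  ∀ F : MvPolynomial (ι × Fin r × Fin r) ℂ, IsInvariant R F →
    (∀ X ∈ T, ∀ L : IntermediateField ℚ ℂ, FiniteDimensional ℚ L → Module.finrank ℚ L ≤ D →
      IsIntegralPoint R L X → value F X = 0) → ∀ X ∈ T, value F X = 0

/-- The representations in `T` with entries in the ring of integers of some number field of degree at
most `D` are Zariski dense in `T` as a set of points of the representation variety. -/
def IsDenseRepDeg (D : ℕ) (T : Set (ι → SpecialLinearGroup (Fin r) ℂ)) : Prop :=
  ∀ F : MvPolynomial (ι × Fin r × Fin r) ℂ,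
    (∀ X ∈ T, ∀ L : IntermediateField ℚ ℂ, FiniteDimensional ℚ L → Module.finrank ℚ L ≤ D →
      IsIntegralRep L X → value F X = 0) → ∀ X ∈ T, value F X = 0

end Vale.Agent.P002.H85
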