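import Vale.Agent.P002.H85.Main2
import Vale.Agent.P002.H85.DefsU

/-!
# Density on the components with an integral representation
-/

namespace Vale.Agent.P002.H85

open Matrix Vale.Agent.P002R.Orb Vale.Agent.P002.H326J Vale.Agent.P002.H252
open Vale.Agent.P002.H306 (KK)

variable {ι : Type} {r : ℕ}

/-- decomposition of a complex polynomial over the field of algebraic numbers -/
theorem exists_decomp {σ : Type} (F : MvPolynomial σ ℂ) :
    ∃ (n : ℕ) (c : Fin n → ℂ) (f : Fin n → MvPolynomial σ KK), LinearIndependent KK c ∧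
      ∀ x : σ → ℂ, MvPolynomial.eval x F = ∑ j, c j * MvPolynomial.aeval x (f j) := by
  classical
  let c := Module.Basis.ofVectorSpace KK ℂ
  let T := F.support.biUnion fun m => (c.repr (MvPolynomial.coeff m F)).support
  obtain ⟨e⟩ : Nonempty (T ≃ Fin (Fintype.card T)) := ⟨Fintype.equivFin T⟩
  let G : T → MvPolynomial σ KK := fun j =>
    ∑ m ∈ F.support, MvPolynomial.monomial m (c.repr (MvPolynomial.coeff m F) j)
  refine ⟨Fintype.card T, fun j => c (e.symm j).1, fun j => G (e.symm j), ?_, fun x => ?_⟩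
  · exact c.linearIndependent.comp (fun j => (e.symm j).1)
      (Subtype.val_injective.comp e.symm.injective)
  · have h4 : ∀ m ∈ F.support, MvPolynomial.coeff m F =
        ∑ j ∈ T, (c.repr (MvPolynomial.coeff m F) j) • c j := by
      intro m hm
      conv_lhs => rw [← c.linearCombination_repr (MvPolynomial.coeff m F)]
      rw [Finsupp.linearCombination_apply, Finsupp.sum]
      refine Finset.sum_subset ?_ ?_
      · intro j hj
        exact Finset.mem_biUnion.2 ⟨m, hm, hj⟩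
      · intro j _ hj
        rw [Finsupp.notMem_support_iff.1 hj, zero_smul]
    have h5 : ∀ j : T, MvPolynomial.aeval x (G j) = ∑ m ∈ F.support,
        ((c.repr (MvPolynomial.coeff m F) j : KK) : ℂ) * ∏ i ∈ m.support, x i ^ m i := by
      intro j
      rw [map_sum]
      refine Finset.sum_congr rfl fun m _ => ?_
      rw [MvPolynomial.aeval_monomial]
      rfl
    have h6 : ∑ j : Fin (Fintype.card T), c (e.symm j).1 * MvPolynomial.aeval x (G (e.symm j)) =
        ∑ j : T, c j.1 * MvPolynomial.aeval x (G j) :=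
      Equiv.sum_comp e.symm fun j : T => c j.1 * MvPolynomial.aeval x (G j)
    rw [h6, MvPolynomial.eval_eq]
    simp_rw [h5, Finset.mul_sum]
    rw [Finset.sum_comm]
    refine Finset.sum_congr rfl fun m hm => ?_
    conv_lhs => rw [h4 m hm, Finset.sum_mul]
    rw [← Finset.sum_coe_sort T]
    refine Finset.sum_congr rfl fun j _ => ?_
    rw [Algebra.smul_def]
    change ((c.repr (MvPolynomial.coeff m F) j : KK) : ℂ) * c j * _ = _
    ring

/-- At algebraic points, a complex polynomial is nonzero if one of its components is. -/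
theorem eval_ne_zero {σ : Type} {n : ℕ} {c : Fin n → ℂ} {f : Fin n → MvPolynomial σ KK}
    {F : MvPolynomial σ ℂ} (hc : LinearIndependent KK c)
    (hF : ∀ x : σ → ℂ, MvPolynomial.eval x F = ∑ j, c j * MvPolynomial.aeval x (f j))
    {x : σ → ℂ} (hx : ∀ i, x i ∈ KK) {j : Fin n} (hj : MvPolynomial.aeval x (f j) ≠ 0) :
    MvPolynomial.eval x F ≠ 0 := by
  intro h0
  rw [hF] at h0
  let y : σ → KK := fun i => ⟨x i, hx i⟩
  have h1 : ∀ p : MvPolynomial σ KK, MvPolynomial.aeval x p =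
      algebraMap KK ℂ (MvPolynomial.aeval y p) := by
    intro p
    rw [← MvPolynomial.aeval_algebraMap_apply]
    rfl
  have h2 : ∑ j, MvPolynomial.aeval y (f j) • c j = 0 := by
    rw [← h0]
    refine Finset.sum_congr rfl fun j _ => ?_
    rw [h1, Algebra.smul_def, mul_comm]
  have h3 := Fintype.linearIndependent_iff.1 hc _ h2 j
  apply hj
  rw [h1, h3, map_zero]

theorem mem_vanIdeal {T : Set (ι → SpecialLinearGroup (Fin r) ℂ)}
    {F : MvPolynomial (ι × Fin r × Fin r) ℂ} : F ∈ vanIdeal T ↔ ∀ X ∈ T, value F X = 0 := Iff.rfl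

theorem vanIdeal_radical (T : Set (ι → SpecialLinearGroup (Fin r) ℂ)) :
    (vanIdeal T).IsRadical := by
  intro F hF X hX
  obtain ⟨n, hn⟩ := hF
  have h1 := hn X hX
  rw [value_eq, map_pow] at h1
  exact eq_zero_of_pow_eq_zero h1

/-- a polynomial which vanishes on all components but one -/
theorem exists_sep [Finite ι] {T : Set (ι → SpecialLinearGroup (Fin r) ℂ)}
    {I : Ideal (MvPolynomial (ι × Fin r × Fin r) ℂ)} (hI : IsComponent T I) :
    ∃ G, G ∉ I ∧ ∀ X ∈ T, value G X ≠ 0 → IsZero I X := by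
  classical
  have hfin : (vanIdeal T).minimalPrimes.Finite :=
    Ideal.finite_minimalPrimes_of_isNoetherianRing _ _
  have hex : ∀ J ∈ (vanIdeal T).minimalPrimes, J ≠ I → ∃ g ∈ J, g ∉ I := by
    intro J hJ hJI
    by_contra hcon
    push Not at hcon
    exact hJI (le_antisymm hcon (hI.2 hJ.1 hcon))
  choose! g hg hgI using hex
  have hprime : I.IsPrime := hI.1.1
  refine ⟨∏ J ∈ hfin.toFinset.erase I, g J, ?_, fun X hX hGX F hF => ?_⟩
  · intro h
    obtain ⟨J, hJ, hJ'⟩ := (Ideal.IsPrime.prod_mem_iff).1 h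
    rw [Finset.mem_erase, Set.Finite.mem_toFinset] at hJ
    exact hgI J hJ.2 hJ.1 hJ'
  · have h1 : F * ∏ J ∈ hfin.toFinset.erase I, g J ∈ vanIdeal T := by
      have h2 : sInf (vanIdeal T).minimalPrimes = vanIdeal T := by
        rw [Ideal.sInf_minimalPrimes]
        exact (vanIdeal_radical T).radical
      refine h2.le ?_
      rw [Submodule.mem_sInf]
      intro J hJ
      by_cases hJI : J = I
      · rw [hJI]
        exact I.mul_mem_right _ hF
      · refine Ideal.mul_mem_left J _ ?_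
        refine Ideal.mem_of_dvd _ (Finset.dvd_prod_of_mem g (a := J) ?_) (hg J hJ hJI)
        rw [Finset.mem_erase, Set.Finite.mem_toFinset]
        exact ⟨hJI, hJ⟩
    have h2 := h1 X hX
    rw [value_eq, map_mul, ← value_eq, ← value_eq] at h2
    exact (mul_eq_zero.1 h2).resolve_right hGX

theorem countable_KK : Countable KK := by
  have h1 : (KK : Set ℂ) ⊆ {z : ℂ | IsAlgebraic ℚ z} := fun z hz => mem_algebraicClosure_iff.1 hz
  exact ((Algebraic.countable ℚ ℂ).mono h1).to_subtype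

theorem exists_generic [Finite ι] {R : Set (FreeGroup ι)} {s : ℕ} {w : Fin s → FreeGroup ι}
    {C : Fin s → SpecialLinearGroup (Fin r) ℂ}
    {I : Ideal (MvPolynomial (ι × Fin r × Fin r) ℂ)} (hI : IsComponent (YW R w C) I)
    {G : MvPolynomial (ι × Fin r × Fin r) ℂ} (hG : G ∉ I)
    (hsep : ∀ X ∈ YW R w C, value G X ≠ 0 → IsZero I X) :
    ∃ X₁ ∈ YW R w C, IsZero I X₁ ∧ ∀ p : MvPolynomial (ι × Fin r × Fin r) KK,
      MvPolynomial.aeval (coords X₁) p = 0 → MvPolynomial.map (algebraMap KK ℂ) p ∈ I := by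
  classical
  have hprime : I.IsPrime := hI.1.1
  have hc := countable_KK
  have hc2 : Countable (MvPolynomial (ι × Fin r × Fin r) KK) :=
    Function.Injective.countable (f := AddMonoidAlgebra.coeffEquiv (R := KK)
      (M := (ι × Fin r × Fin r) →₀ ℕ)) (Equiv.injective _)
  obtain ⟨f, hf⟩ := exists_surjective_nat (Finset (MvPolynomial (ι × Fin r × Fin r) KK))
  let good : ℕ → Prop := fun n => ∃ X ∈ YW R w C, value G X ≠ 0 ∧
    Ideal.span (f n : Set (MvPolynomial (ι × Fin r × Fin r) KK)) =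
      RingHom.ker (MvPolynomial.aeval (coords X) :
        MvPolynomial (ι × Fin r × Fin r) KK →ₐ[KK] ℂ)
  let A : ℕ → Set (MvPolynomial (ι × Fin r × Fin r) ℂ) := fun n =>
    {p | (good n ∧ ∃ q ∈ f n, MvPolynomial.map (algebraMap KK ℂ) q = p) ∨ (¬ good n ∧ p = 1)}
  obtain ⟨Φ, hΦ⟩ := BPT_YW R w C {G} A (by
    rintro _ ⟨X, ⟨hX, F, hF, hFX⟩, rfl⟩
    rw [Set.mem_singleton_iff] at hF
    subst hF
    obtain ⟨S, hS⟩ : (RingHom.ker (MvPolynomial.aeval (coords X) :
        MvPolynomial (ι × Fin r × Fin r) KK →ₐ[KK] ℂ)).FG := IsNoetherian.noetherian _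
    obtain ⟨n, hn⟩ := hf S
    have hgood : good n := ⟨X, hX, hFX, by rw [hn]; exact hS⟩
    refine ⟨n, fun p hp => ?_⟩
    rcases hp with ⟨-, q, hq, rfl⟩ | ⟨h1, -⟩
    · rw [← aeval_eq_map]
      have h1 : q ∈ Ideal.span (S : Set (MvPolynomial (ι × Fin r × Fin r) KK)) :=
        Ideal.subset_span (by rw [← hn]; exact hq)
      exact hS.le h1
    · exact absurd hgood h1)
  have hex : ∃ n ∈ Φ, A n ⊆ I := by
    by_contra hcon
    push Not at hcon
    have h1 : ∀ n ∈ Φ, ∃ a ∈ A n, a ∉ I := fun n hn => Set.not_subset.1 (hcon n hn)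
    choose! a ha haI using h1
    have h2 : (∏ n ∈ Φ, a n) * G ∈ vanIdeal (YW R w C) := by
      intro X hX
      rw [value_eq, map_mul, map_prod, ← value_eq]
      by_cases hGX : value G X = 0
      · rw [hGX, mul_zero]
      · obtain ⟨n, hn, hn'⟩ := hΦ (coords X) ⟨X, ⟨hX, G, rfl, hGX⟩, rfl⟩
        rw [Finset.prod_eq_zero hn (hn' _ (ha n hn)), zero_mul]
    rcases hprime.mem_or_mem (hI.1.2 h2) with h3 | h3
    · obtain ⟨n, hn, hn'⟩ := (Ideal.IsPrime.prod_mem_iff).1 h3
      exact haI n hn hn'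
    · exact hG h3
  obtain ⟨n, -, hn⟩ := hex
  have hgood : good n := by
    by_contra hng
    exact hprime.ne_top ((Ideal.eq_top_iff_one _).2 (hn (Or.inr ⟨hng, rfl⟩)))
  obtain ⟨X, hX, hGX, hspan⟩ := hgood
  refine ⟨X, hX, hsep X hX hGX, fun p hp => ?_⟩
  have h1 : p ∈ Ideal.span (f n : Set (MvPolynomial (ι × Fin r × Fin r) KK)) := by
    rw [hspan]; exact hp
  have h2 : Ideal.span (f n : Set (MvPolynomial (ι × Fin r × Fin r) KK)) ≤
      I.comap (MvPolynomial.map (algebraMap KK ℂ)) := by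
    rw [Ideal.span_le]
    intro q hq
    exact hn (Or.inl ⟨⟨X, hX, hGX, hspan⟩, q, hq, rfl⟩)
  exact h2 h1

/-- the entries of the matrices as elements of the ring they generate -/
theorem exists_tuple (X : ι → SpecialLinearGroup (Fin r) ℂ) :
    ∃ X' : ι → SpecialLinearGroup (Fin r) (MvPolynomial.aeval (coords X) :
        MvPolynomial (ι × Fin r × Fin r) KK →ₐ[KK] ℂ).range,
      (fun p => SpecialLinearGroup.map ((MvPolynomial.aeval (coords X) :
        MvPolynomial (ι × Fin r × Fin r) KK →ₐ[KK] ℂ).range.val : _ →+* ℂ) (X' p)) = X ∧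
      ∀ p i j, (X' p).1 i j = ⟨MvPolynomial.aeval (coords X) (MvPolynomial.X (p, i, j)),
        MvPolynomial.X (p, i, j), rfl⟩ := by
  let M : ι → Matrix (Fin r) (Fin r) (MvPolynomial.aeval (coords X) :
        MvPolynomial (ι × Fin r × Fin r) KK →ₐ[KK] ℂ).range := fun p i j =>
    ⟨MvPolynomial.aeval (coords X) (MvPolynomial.X (p, i, j)), MvPolynomial.X (p, i, j), rfl⟩
  have hM : ∀ p, (M p).map ((MvPolynomial.aeval (coords X) :
        MvPolynomial (ι × Fin r × Fin r) KK →ₐ[KK] ℂ).range.val : _ →+* ℂ) = (X p).1 := by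
    intro p
    ext i j
    change MvPolynomial.aeval (coords X) (MvPolynomial.X (p, i, j)) = _
    rw [MvPolynomial.aeval_X]
    rfl
  have hdet : ∀ p, (M p).det = 1 := by
    intro p
    apply Subtype.val_injective
    change ((MvPolynomial.aeval (coords X) :
        MvPolynomial (ι × Fin r × Fin r) KK →ₐ[KK] ℂ).range.val : _ →+* ℂ) (M p).det = 1
    rw [RingHom.map_det]
    change ((M p).map ((MvPolynomial.aeval (coords X) :
        MvPolynomial (ι × Fin r × Fin r) KK →ₐ[KK] ℂ).range.val : _ →+* ℂ)).det = 1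
    rw [hM]
    exact (X p).2
  refine ⟨fun p => ⟨M p, hdet p⟩, ?_, fun p i j => rfl⟩
  funext p
  exact Subtype.ext (hM p)

theorem comp_dense [Finite ι] {R : Set (FreeGroup ι)} {s : ℕ} {w : Fin s → FreeGroup ι}
    {C : Fin s → SpecialLinearGroup (Fin r) ℂ}
    (hC : ∀ j z, IsEigenvalue (C j) z → IsIntegral ℚ z)
    {I : Ideal (MvPolynomial (ι × Fin r × Fin r) ℂ)} (hI : IsComponent (YW R w C) I)
    (X₀ : ι → SpecialLinearGroup (Fin r) ℂ) (hX₀ : IsZero I X₀)
    (hint : ∀ p i j, IsIntegral ℤ ((X₀ p).1 i j)) :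
    ∃ D : ℕ, ∀ F : MvPolynomial (ι × Fin r × Fin r) ℂ,
      (∃ X ∈ part (YW R w C) I, value F X ≠ 0) → ∃ X ∈ part (YW R w C) I, value F X ≠ 0 ∧
        (∀ p i j, IsIntegral ℤ ((X p).1 i j)) ∧ ∃ L : IntermediateField ℚ ℂ,
          FiniteDimensional ℚ L ∧ Module.finrank ℚ L ≤ D ∧ ∀ p i j, (X p).1 i j ∈ L := by
  classical
  have hprime : I.IsPrime := hI.1.1
  obtain ⟨G, hG, hsep⟩ := exists_sep hI
  obtain ⟨X₁, hX₁, hX₁I, hgen⟩ := exists_generic hI hG hsep
  choose J hJ using fun k => exists_J (C k) (hC k)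
  obtain ⟨X', hX', hX'e⟩ := exists_tuple X₁
  obtain ⟨h, hh0, hh⟩ := open_spec J hJ _ X' (by rw [hX']; exact hX₁)
  obtain ⟨_, hp, rfl⟩ := h
  have hp0 : MvPolynomial.aeval (coords X₁) hp ≠ 0 := fun h0 => hh0 (Subtype.ext h0)
  obtain ⟨D, hD⟩ := points_exist (coords X₁) (coords X₀) (fun i => hint _ _ _) (by
    intro p hp
    rw [aeval_eq_map]
    exact hX₀ _ (hgen p hp))
  refine ⟨D, fun F hF => ?_⟩
  -- a point with `F * G ≠ 0`
  obtain ⟨X₂, hX₂, hX₂F⟩ : ∃ X ∈ part (YW R w C) I, value (F * G) X ≠ 0 := by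
    obtain ⟨X, hX, hFX⟩ := hF
    by_contra hcon
    push Not at hcon
    have h1 : F * G ∈ vanIdeal (YW R w C) := by
      intro Y hY
      by_cases hGY : value G Y = 0
      · rw [value_eq, map_mul, ← value_eq, ← value_eq, hGY, mul_zero]
      · exact hcon Y ⟨hY, hsep Y hY hGY⟩
    rcases hprime.mem_or_mem (hI.1.2 h1) with h3 | h3
    · exact hFX (hX.2 F h3)
    · exact hG h3
  obtain ⟨n, c, f, hc, hdec⟩ := exists_decomp (F * G)
  obtain ⟨j, hj⟩ : ∃ j, MvPolynomial.aeval (coords X₂) (f j) ≠ 0 := by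
    by_contra hcon
    push Not at hcon
    apply hX₂F
    rw [value_eq, hdec]
    exact Finset.sum_eq_zero fun j _ => by rw [hcon j, mul_zero]
  have hj1 : MvPolynomial.aeval (coords X₁) (f j) ≠ 0 := by
    intro h0
    apply hj
    rw [aeval_eq_map]
    exact hX₂.2 _ (hgen _ h0)
  obtain ⟨x, hxker, hxne, hxint, L, hL, hLr, hxL⟩ := hD (f j * hp) (by
    rw [map_mul]
    exact mul_ne_zero hj1 hp0)
  rw [map_mul] at hxne
  obtain ⟨φ, hφ⟩ := exists_lift (coords X₁) x hxker
  have hX := hh φ (by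
    intro h2
    exact right_ne_zero_of_mul hxne ((hφ hp).symm.trans h2))
  have hcoord : coords (fun p => SpecialLinearGroup.map (φ : _ →+* ℂ) (X' p)) = x := by
    funext q
    obtain ⟨p, i, k⟩ := q
    change φ ((X' p).1 i k) = x (p, i, k)
    rw [hX'e, hφ, MvPolynomial.aeval_X]
  have hFG : value (F * G) (fun p => SpecialLinearGroup.map (φ : _ →+* ℂ) (X' p)) ≠ 0 := by
    rw [value_eq, hcoord]
    exact eval_ne_zero hc hdec (fun i => mem_KK (hxint i).tower_top) (left_ne_zero_of_mul hxne)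
  rw [value_eq, map_mul, ← value_eq, ← value_eq] at hFG
  refine ⟨_, ⟨hX, hsep _ hX (right_ne_zero_of_mul hFG)⟩, left_ne_zero_of_mul hFG, ?_, L, hL, hLr,
    ?_⟩
  · intro p i k
    have := hxint (p, i, k)
    rw [← hcoord] at this
    exact this
  · intro p i k
    have := hxL (p, i, k)
    rw [← hcoord] at this
    exact this

end Vale.Agent.P002.H85
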