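import Vale.Agent.P002.H85.Main1
import Vale.Agent.P002.H85.Dens
import Vale.Agent.P002.H252.Tr1
import Vale.Agent.P002.H377.Conj

/-!
# Semisimple representations with integral traces are conjugate to integral representations
-/

namespace Vale.Agent.P002.H85

open Matrix Vale.Agent.P002R.Orb Vale.Agent.P002.H326J Vale.Agent.P002.H252 NumberField
open Vale.Agent.P002.H306 (KK)

variable {ι : Type} {r : ℕ}

theorem ss_spec (B : Subalgebra KK ℂ) (X : ι → SpecialLinearGroup (Fin r) B)
    (hss : ∀ W, IsInv (fun p => SpecialLinearGroup.map (B.val : B →+* ℂ) (X p)) W →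
      ∃ W', IsInv (fun p => SpecialLinearGroup.map (B.val : B →+* ℂ) (X p)) W' ∧ IsCompl W W') :
    ∃ (d : ℕ) (u : Fin d → FreeGroup ι),
      (Matrix.of fun i j => (FreeGroup.lift X (u i * u j)).1.trace).det ≠ 0 ∧
      ∀ φ : B →+* ℂ, φ (Matrix.of fun i j => (FreeGroup.lift X (u i * u j)).1.trace).det ≠ 0 →
        ∀ W, IsInv (fun p => SpecialLinearGroup.map φ (X p)) W →
          ∃ W', IsInv (fun p => SpecialLinearGroup.map φ (X p)) W' ∧ IsCompl W W' := by
  classical
  have hval : Function.Injective (B.val : B →+* ℂ) := Subtype.val_injective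
  obtain ⟨d, hd, hE, u, hu⟩ := (crit (matHom _)).1 ((ss_iff _).1 hss)
  have hgram : ∀ φ : B →+* ℂ, (gramW (matHom fun p => SpecialLinearGroup.map φ (X p)) u).det =
      φ (Matrix.of fun i j => (FreeGroup.lift X (u i * u j)).1.trace).det := by
    intro φ
    rw [RingHom.map_det]
    congr 1
    ext i j
    rw [gramW, matHom_apply, lift_map]
    change ∑ l, φ ((FreeGroup.lift X (u i * u j)).1 l l) =
      φ (∑ l, (FreeGroup.lift X (u i * u j)).1 l l)
    rw [map_sum]
  refine ⟨d, u, ?_, fun φ hφ => ?_⟩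
  · intro h0
    apply hu
    rw [hgram, h0, map_zero]
  · rw [ss_iff, crit]
    refine ⟨d, hd, fun v hv => ?_, u, ?_⟩
    · rw [indep_iff_minor'] at hv
      obtain ⟨c, hc'⟩ := hv
      have h1 := hE v
      rw [indep_iff_minor'] at h1
      apply h1
      refine ⟨c, fun h0 => hc' ?_⟩
      have hdet : ∀ φ : B →+* ℂ, (Matrix.of fun a b =>
          matHom (fun p => SpecialLinearGroup.map φ (X p)) (v a) (c b).1 (c b).2).det =
          φ (Matrix.of fun a b => (FreeGroup.lift X (v a)).1 (c b).1 (c b).2).det := by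
        intro φ
        rw [RingHom.map_det]
        congr 1
        ext i j
        rw [Matrix.of_apply, matHom_apply, lift_map]
        rfl
      rw [hdet] at h0 ⊢
      have h2 := hval (h0.trans (map_zero _).symm)
      rw [h2, map_zero]
    · rw [hgram]
      exact hφ

theorem trace_lift_map {A A' : Type} [CommRing A] [CommRing A'] (φ : A →+* A')
    (X : ι → SpecialLinearGroup (Fin r) A) (x : FreeGroup ι) :
    (FreeGroup.lift (fun p => SpecialLinearGroup.map φ (X p)) x).1.trace =
      φ (FreeGroup.lift X x).1.trace := by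
  rw [lift_map]
  change ∑ l, φ ((FreeGroup.lift X x).1 l l) = φ (∑ l, (FreeGroup.lift X x).1 l l)
  rw [map_sum]

theorem alg_of_hom (B : Subalgebra KK ℂ) (X : ι → SpecialLinearGroup (Fin r) B) (ψ : B →ₐ[KK] KK)
    (hss : ∀ W, IsInv (fun p => SpecialLinearGroup.map (B.val : B →+* ℂ) (X p)) W →
      ∃ W', IsInv (fun p => SpecialLinearGroup.map (B.val : B →+* ℂ) (X p)) W' ∧ IsCompl W W')
    (htr : ∀ x, (FreeGroup.lift (fun p => SpecialLinearGroup.map (B.val : B →+* ℂ) (X p))
      x).1.trace ∈ KK) :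
    ∃ X₁ : ι → SpecialLinearGroup (Fin r) ℂ, (∀ p i j, (X₁ p).1 i j ∈ KK) ∧
      (∀ W, IsInv X₁ W → ∃ W', IsInv X₁ W' ∧ IsCompl W W') ∧
      ∀ x, (FreeGroup.lift X₁ x).1.trace =
        (FreeGroup.lift (fun p => SpecialLinearGroup.map (B.val : B →+* ℂ) (X p)) x).1.trace := by
  let φ : B →+* ℂ := (algebraMap KK ℂ).comp (ψ : B →+* KK)
  have hφ : ∀ b : B, (b : ℂ) ∈ KK → φ b = b := by
    intro b hb
    have h1 : b = algebraMap KK B ⟨b, hb⟩ := Subtype.ext rfl
    change ((ψ b : KK) : ℂ) = b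
    have h2 : ψ b = ⟨b, hb⟩ := by
      conv_lhs => rw [h1]
      exact ψ.commutes _
    rw [h2]
  have htr' : ∀ x, φ (FreeGroup.lift X x).1.trace = ((FreeGroup.lift X x).1.trace : B) := by
    intro x
    apply hφ
    have h1 := htr x
    rw [trace_lift_map] at h1
    exact h1
  obtain ⟨d, u, hu, hss'⟩ := ss_spec B X hss
  refine ⟨fun p => SpecialLinearGroup.map φ (X p), fun p i j => ?_, hss' φ ?_, fun x => ?_⟩
  · exact (ψ ((X p).1 i j)).2
  · have h1 : φ (Matrix.of fun i j => (FreeGroup.lift X (u i * u j)).1.trace).det =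
        (B.val : B →+* ℂ) (Matrix.of fun i j => (FreeGroup.lift X (u i * u j)).1.trace).det := by
      rw [RingHom.map_det, RingHom.map_det]
      congr 1
      ext i j
      exact htr' _
    rw [h1]
    intro h2
    exact hu (Subtype.val_injective (h2.trans (map_zero (B.val : B →+* ℂ)).symm))
  · rw [trace_lift_map, trace_lift_map, htr']
    rfl

/-- a semisimple representation with algebraic traces has a model over the algebraic numbers -/
theorem exists_alg [Finite ι] (X : ι → SpecialLinearGroup (Fin r) ℂ)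
    (hss : ∀ W, IsInv X W → ∃ W', IsInv X W' ∧ IsCompl W W')
    (htr : ∀ x, IsIntegral ℚ (FreeGroup.lift X x).1.trace) :
    ∃ X₁ : ι → SpecialLinearGroup (Fin r) ℂ, (∀ p i j, (X₁ p).1 i j ∈ KK) ∧
      (∀ W, IsInv X₁ W → ∃ W', IsInv X₁ W' ∧ IsCompl W W') ∧
      ∀ x, (FreeGroup.lift X₁ x).1.trace = (FreeGroup.lift X x).1.trace := by
  classical
  obtain ⟨X', hX', hX'e⟩ := exists_tuple X
  obtain ⟨y, hy⟩ : ∃ y : ι × Fin r × Fin r → KK, ∀ p : MvPolynomial (ι × Fin r × Fin r) KK,
      MvPolynomial.aeval (coords X) p = 0 → MvPolynomial.aeval y p = 0 := by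
    by_contra hcon
    push Not at hcon
    have h1 := Vale.Agent.P002.H306.ns (RingHom.ker (MvPolynomial.aeval (coords X) :
      MvPolynomial (ι × Fin r × Fin r) KK →ₐ[KK] ℂ)) 1 (by
        intro y hy
        obtain ⟨p, hp, hp'⟩ := hcon y
        exact absurd (hy p hp) hp') (coords X) (fun p hp => hp)
    rw [map_one] at h1
    exact one_ne_zero h1
  obtain ⟨ψ, hψ⟩ := exists_lift (coords X) y hy
  have h1 := alg_of_hom _ X' ψ (by rw [hX']; exact hss) (by
    intro x
    rw [hX']
    exact mem_KK (htr x))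
  rw [hX'] at h1
  exact h1

/-- a stable lattice gives integral matrices -/
theorem conj_of_lattice (S : Set (Matrix (Fin r) (Fin r) ℂ))
    (M : Submodule (integralClosure ℤ ℂ) (Fin r → ℂ)) (hfg : M.FG)
    (hd : ∃ d : ℂ, d ≠ 0 ∧ ∀ v ∈ M, ∀ i, IsIntegral ℤ (d * v i))
    (he : ∀ i, (Pi.single i 1 : Fin r → ℂ) ∈ M) (hstab : ∀ A ∈ S, ∀ v ∈ M, A *ᵥ v ∈ M) :
    ∃ P Q : Matrix (Fin r) (Fin r) ℂ, P * Q = 1 ∧ Q * P = 1 ∧
      ∀ A ∈ S, ∀ i j, IsIntegral ℤ ((Q * A * P) i j) := by
  classical
  obtain ⟨s, b, hb, hs⟩ := Vale.Agent.P002.H306.free r M hfg hd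
  have htop : ⊤ ≤ Submodule.span ℂ (Set.range b) := by
    have h1 : (M : Set (Fin r → ℂ)) ⊆ Submodule.span ℂ (Set.range b) := by
      rw [← hs]
      exact Submodule.span_subset_span (integralClosure ℤ ℂ) ℂ _
    intro v _
    rw [pi_eq_sum_univ' v]
    refine Submodule.sum_mem _ fun i _ => Submodule.smul_mem _ _ ?_
    have := h1 (he i)
    rw [SetLike.mem_coe] at this
    convert this using 2
  have hsr : s = r := by
    have h2 := Module.finrank_eq_card_basis (Module.Basis.mk hb htop)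
    simpa using h2.symm
  subst hsr
  let P : Matrix (Fin s) (Fin s) ℂ := Matrix.of fun i j => b j i
  have hP : IsUnit P := by
    rw [← Matrix.linearIndependent_cols_iff_isUnit]
    exact hb
  have hdet : IsUnit P.det := (Matrix.isUnit_iff_isUnit_det P).1 hP
  refine ⟨P, P⁻¹, Matrix.mul_nonsing_inv _ hdet, Matrix.nonsing_inv_mul _ hdet, ?_⟩
  intro A hA
  have h1 : ∀ j, ∃ c : Fin s → integralClosure ℤ ℂ, ∑ i, c i • b i = A *ᵥ b j := by
    intro j
    have : b j ∈ M := hs ▸ Submodule.subset_span ⟨j, rfl⟩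
    have := hstab A hA _ this
    rw [← hs] at this
    exact (Submodule.mem_span_range_iff_exists_fun _).1 this
  choose c hc using h1
  have h2 : A * P = P * Matrix.of fun i j => (c j i).1 := by
    ext i j
    have := congrFun (hc j) i
    simp only [Finset.sum_apply] at this
    rw [Matrix.mul_apply, Matrix.mul_apply]
    change ∑ k, A i k * b j k = ∑ k, b k i * (c j k).1
    change _ = ∑ k, A i k * b j k at this
    rw [← this]
    refine Finset.sum_congr rfl fun k _ => ?_
    change (c j k).1 * b k i = _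
    ring
  intro i j
  rw [Matrix.mul_assoc, h2, Matrix.nonsing_inv_mul_cancel_left _ _ hdet]
  exact (c j i).2

end Vale.Agent.P002.H85
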