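import Vale.Agent.P002.H85.Bass

/-!
# Semisimple representations with integral traces are conjugate to integral representations
-/

namespace Vale.Agent.P002.H85

open Matrix Vale.Agent.P002R.Orb Vale.Agent.P002.H326J Vale.Agent.P002.H252 NumberField
open Vale.Agent.P002.H306 (KK)

variable {ι : Type} {r : ℕ}

/-- a basis of the span consisting of group elements, with nondegenerate Gram matrix -/
theorem exists_gram' {Z : Type} [Group Z] {X : Z →* Matrix (Fin r) (Fin r) ℂ}
    (h : SSf fun z => Matrix.toLin' (X z)) :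
    ∃ (d : ℕ) (u : Fin d → Z), (gramW X u).det ≠ 0 ∧
      ∀ z, X z ∈ Submodule.span ℂ (Set.range fun i => X (u i)) := by
  obtain ⟨d, -, hd, u, hu⟩ := (crit X).1 h
  have hli : LinearIndependent ℂ (fun i => X (u i)) := by
    rw [Fintype.linearIndependent_iff]
    intro c hc
    have h1 : c ᵥ* gramW X u = 0 := by
      funext j
      rw [vecMul_gramW, hc, zero_mul, Matrix.trace_zero]
      rfl
    have h2 : c = 0 := by
      by_contra h0
      exact hu (Matrix.exists_vecMul_eq_zero_iff.1 ⟨c, h0, h1⟩)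
    exact fun i => congrFun h2 i
  refine ⟨d, u, hu, fun z => ?_⟩
  by_contra hz
  refine hd (Fin.cons z u) ?_
  have h1 : (fun i => X ((Fin.cons z u : Fin (d + 1) → Z) i)) =
      Fin.cons (X z) fun i => X (u i) := by
    funext i
    refine Fin.cases ?_ (fun i => ?_) i
    · rfl
    · rfl
  rw [h1, linearIndependent_finCons]
  exact ⟨hli, hz⟩

theorem int_of_alg [Finite ι] (X : ι → SpecialLinearGroup (Fin r) ℂ)
    (hX : ∀ p i j, (X p).1 i j ∈ KK)
    (hss : ∀ W, IsInv X W → ∃ W', IsInv X W' ∧ IsCompl W W')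
    (htr : ∀ x, IsIntegral ℤ (FreeGroup.lift X x).1.trace) :
    ∃ P Q : Matrix (Fin r) (Fin r) ℂ, P * Q = 1 ∧ Q * P = 1 ∧
      ∀ p i j, IsIntegral ℤ ((Q * (X p).1 * P) i j) := by
  classical
  obtain ⟨d, u, hu, hsp⟩ := exists_gram' (X := matHom X) ((ss_iff X).1 hss)
  -- the number field
  have hfin : (Set.range (coords X)).Finite := Set.finite_range _
  obtain ⟨K, hK⟩ : ∃ K : IntermediateField ℚ ℂ, K = IntermediateField.adjoin ℚ
      (Set.range (coords X)) := ⟨_, rfl⟩
  have hKfd : FiniteDimensional ℚ K := by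
    rw [hK]
    refine Vale.Agent.P002.H306.exists_nf _ hfin ?_
    rintro _ ⟨p, rfl⟩
    exact (mem_algebraicClosure_iff.1 (hX p.1 p.2.1 p.2.2)).isIntegral
  have hNF : NumberField K := { to_charZero := inferInstance, to_finiteDimensional := hKfd }
  have hXK : ∀ p i j, (X p).1 i j ∈ K := fun p i j => by
    rw [hK]
    exact IntermediateField.subset_adjoin _ _ ⟨(p, i, j), rfl⟩
  obtain ⟨Y, hY⟩ : ∃ Y : ι → SpecialLinearGroup (Fin r) K,
      (fun p => SpecialLinearGroup.map (algebraMap K ℂ) (Y p)) = X := by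
    have hdet : ∀ p, (Matrix.of fun i j => (⟨(X p).1 i j, hXK p i j⟩ : K)).det = 1 := by
      intro p
      apply (algebraMap K ℂ).injective
      rw [RingHom.map_det, map_one]
      exact (X p).2
    exact ⟨fun p => ⟨_, hdet p⟩, rfl⟩
  have hword : ∀ x i j, (FreeGroup.lift X x).1 i j ∈ K := by
    intro x i j
    rw [← hY, lift_map]
    exact ((FreeGroup.lift Y x).1 i j).2
  have htrK : ∀ x, (FreeGroup.lift X x).1.trace ∈ K := fun x =>
    K.sum_mem fun i _ => hword x i i
  -- the lattice
  obtain ⟨v, hv⟩ : ∃ v : FreeGroup ι × Fin r → Fin r → ℂ,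
      ∀ q i, v q i = (FreeGroup.lift X q.1).1 i q.2 := ⟨_, fun _ _ => rfl⟩
  obtain ⟨G, hG⟩ : ∃ G, G = gramW (matHom X) u := ⟨_, rfl⟩
  have hGe : ∀ i j, G i j = (FreeGroup.lift X (u i * u j)).1.trace := fun i j => by
    rw [hG, gramW, matHom_apply]
  have hGint : ∀ i j, IsIntegral ℤ (G i j) := fun i j => by
    rw [hGe]; exact htr _
  have hGadj : ∀ i j, G.adjugate i j ∈ K := by
    obtain ⟨G', hG'⟩ : ∃ G' : Matrix (Fin d) (Fin d) K, G'.map (algebraMap K ℂ) = G :=
      ⟨Matrix.of fun i j => ⟨G i j, by rw [hGe]; exact htrK _⟩, rfl⟩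
    intro i j
    have h1 := RingHom.map_adjugate (algebraMap K ℂ) G'
    rw [RingHom.mapMatrix_apply, RingHom.mapMatrix_apply, hG'] at h1
    rw [← h1]
    exact (G'.adjugate i j).2
  have hGdet : G.det ≠ 0 := by rw [hG]; exact hu
  have hco : ∀ x : FreeGroup ι, ∃ a : Fin d → 𝓞 K, ∀ j,
      v (x, j) = ∑ i, a i • (G.det⁻¹ • v (u i, j)) := by
    intro x
    obtain ⟨c, hc⟩ := (Submodule.mem_span_range_iff_exists_fun ℂ).1 (hsp x)
    have hGc : ∀ i, (G *ᵥ c) i = (FreeGroup.lift X (u i * x)).1.trace := by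
      intro i
      change ∑ j, G i j * c j = _
      rw [← matHom_apply, map_mul, ← hc, Finset.mul_sum, Matrix.trace_sum]
      refine Finset.sum_congr rfl fun j _ => ?_
      rw [hG, gramW, map_mul, mul_smul_comm, Matrix.trace_smul, smul_eq_mul, mul_comm]
    have h1 : ∀ i, IsIntegral ℤ (G.det * c i) := fun i =>
      cramer_int G hGint c (fun j => by rw [hGc]; exact htr _) i
    have h2 : ∀ i, G.det * c i ∈ K := by
      intro i
      have h3 : G.adjugate *ᵥ (G *ᵥ c) = G.det • c := by
        rw [Matrix.mulVec_mulVec, Matrix.adjugate_mul, Matrix.smul_mulVec, Matrix.one_mulVec]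
      have h4 := congrFun h3 i
      rw [Pi.smul_apply, smul_eq_mul] at h4
      rw [← h4]
      change ∑ j, G.adjugate i j * (G *ᵥ c) j ∈ K
      exact K.sum_mem fun j _ => K.mul_mem (hGadj i j) (by rw [hGc]; exact htrK _)
    refine ⟨fun i => ⟨⟨G.det * c i, h2 i⟩,
      (isIntegral_algebraMap_iff (algebraMap K ℂ).injective).1 (h1 i)⟩, fun j => ?_⟩
    funext k
    rw [hv, Finset.sum_apply]
    have h5 := congrFun (congrFun hc k) j
    rw [matHom_apply] at h5
    rw [← h5, Matrix.sum_apply]
    refine Finset.sum_congr rfl fun i _ => ?_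
    change c i * (matHom X (u i)) k j = (G.det * c i) * (G.det⁻¹ * v (u i, j) k)
    rw [hv, matHom_apply]
    field_simp
  obtain ⟨s, hs, hspan⟩ : ∃ s : Finset (Fin r → ℂ), (s : Set (Fin r → ℂ)) ⊆ Set.range v ∧
      ∀ q, v q ∈ Submodule.span (𝓞 K) (s : Set (Fin r → ℂ)) := by
    have h1 : (Submodule.span (𝓞 K) (Set.range fun q : Fin d × Fin r =>
        G.det⁻¹ • v (u q.1, q.2))).FG := Submodule.fg_span (Set.finite_range _)
    have h2 : Submodule.span (𝓞 K) (Set.range v) ≤ Submodule.span (𝓞 K)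
        (Set.range fun q : Fin d × Fin r => G.det⁻¹ • v (u q.1, q.2)) := by
      rw [Submodule.span_le]
      rintro _ ⟨⟨x, j⟩, rfl⟩
      obtain ⟨a, ha⟩ := hco x
      rw [ha j]
      exact Submodule.sum_mem _ fun i _ => Submodule.smul_mem _ _
        (Submodule.subset_span ⟨(i, j), rfl⟩)
    obtain ⟨s, hs, hspan⟩ := (Submodule.fg_span_iff_fg_span_finset_subset _).1 (h1.of_le h2)
    exact ⟨s, hs, fun q => hspan ▸ Submodule.subset_span ⟨q, rfl⟩⟩
  let M : Submodule (integralClosure ℤ ℂ) (Fin r → ℂ) := Submodule.span _ (s : Set (Fin r → ℂ))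
  have hvM : ∀ q, v q ∈ M := by
    intro q
    have h1 := hspan q
    generalize v q = y at h1
    induction h1 using Submodule.span_induction with
    | mem x hx => exact Submodule.subset_span hx
    | zero => exact M.zero_mem
    | add x y _ _ hx hy => exact M.add_mem hx hy
    | smul a x _ hx =>
      have h2 : IsIntegral ℤ ((a : K) : ℂ) :=
        (isIntegral_algebraMap_iff (algebraMap K ℂ).injective).2 a.2
      exact M.smul_mem (⟨((a : K) : ℂ), h2⟩ : integralClosure ℤ ℂ) hx
  obtain ⟨e, he0, -, he⟩ := Vale.Agent.P002.H306.exists_denom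
    (s.biUnion fun x => Finset.univ.image x) (by
      intro z hz
      obtain ⟨x, hx, hz⟩ := Finset.mem_biUnion.1 hz
      obtain ⟨i, -, rfl⟩ := Finset.mem_image.1 hz
      obtain ⟨q, rfl⟩ := hs hx
      rw [hv]
      have h1 : IsAlgebraic ℚ (⟨_, hword q.1 i q.2⟩ : K) := Algebra.IsAlgebraic.isAlgebraic _
      exact (h1.algebraMap : IsAlgebraic ℚ (algebraMap K ℂ ⟨_, hword q.1 i q.2⟩)).isIntegral)
  obtain ⟨P, Q, hPQ, hQP, hint⟩ := conj_of_lattice (Set.range fun x => (FreeGroup.lift X x).1) M
    (Submodule.fg_span s.finite_toSet) ⟨e, he0, fun x hx => by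
      induction hx using Submodule.span_induction with
      | mem x hx =>
        intro i
        exact he _ (Finset.mem_biUnion.2 ⟨x, hx, Finset.mem_image_of_mem _ (Finset.mem_univ _)⟩)
      | zero => intro i; simp [isIntegral_zero]
      | add x y _ _ hx hy =>
        intro i
        rw [Pi.add_apply, mul_add]
        exact (hx i).add (hy i)
      | smul c x _ hx =>
        intro i
        have : e * (c • x) i = c.1 * (e * x i) := by
          change e * (c.1 * x i) = _
          ring
        rw [this]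
        exact c.2.mul (hx i)⟩
    (fun i => by
      have h1 := hvM (1, i)
      have h2 : v (1, i) = Pi.single i 1 := by
        funext j
        rw [hv, map_one]
        change (1 : Matrix (Fin r) (Fin r) ℂ) j i = _
        rw [Matrix.one_apply, Pi.single_apply]
      rwa [h2] at h1)
    (by
      rintro _ ⟨g, rfl⟩ x hx
      induction hx using Submodule.span_induction with
      | mem x hx =>
        obtain ⟨q, rfl⟩ := hs hx
        have h1 : (FreeGroup.lift X g).1 *ᵥ v q = v (g * q.1, q.2) := by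
          funext i
          rw [hv, map_mul]
          change ∑ k, (FreeGroup.lift X g).1 i k * v q k =
            ∑ k, (FreeGroup.lift X g).1 i k * (FreeGroup.lift X q.1).1 k q.2
          exact Finset.sum_congr rfl fun k _ => by rw [hv]
        rw [h1]
        exact hvM _
      | zero => rw [Matrix.mulVec_zero]; exact M.zero_mem
      | add x y _ _ hx hy => rw [Matrix.mulVec_add]; exact M.add_mem hx hy
      | smul c x _ hx =>
        have : (FreeGroup.lift X g).1 *ᵥ (c • x) = c • ((FreeGroup.lift X g).1 *ᵥ x) := by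
          change _ *ᵥ (c.1 • x) = c.1 • _
          rw [Matrix.mulVec_smul]
        rw [this]
        exact M.smul_mem _ hx)
  refine ⟨P, Q, hPQ, hQP, fun p => ?_⟩
  exact hint _ ⟨FreeGroup.of p, by
    change (FreeGroup.lift X (FreeGroup.of p)).1 = _
    rw [FreeGroup.lift_apply_of]⟩

end Vale.Agent.P002.H85
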