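import Vale.Agent.P002.H85.Bass2

/-!
# Semisimple representations with integral traces are conjugate to integral representations
-/

namespace Vale.Agent.P002.H85

open Matrix Vale.Agent.P002R.Orb Vale.Agent.P002.H326J Vale.Agent.P002.H252 NumberField
open Vale.Agent.P002.H306 (KK)

variable {ι : Type} {r : ℕ}

/-- invertible matrices give conjugations by elements of `SL_r` -/
theorem exists_sl_scale (P Q : Matrix (Fin r) (Fin r) ℂ) (hPQ : P * Q = 1) :
    ∃ g : SpecialLinearGroup (Fin r) ℂ, ∀ A : SpecialLinearGroup (Fin r) ℂ,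
      (g * A * g⁻¹).1 = Q * A.1 * P := by
  rcases Nat.eq_zero_or_pos r with hr | hr
  · subst hr
    exact ⟨1, fun A => Matrix.ext fun i => i.elim0⟩
  · have hQP : Q * P = 1 := mul_eq_one_comm.1 hPQ
    have hdet : Q.det ≠ 0 := by
      intro h0
      have h1 := congrArg Matrix.det hPQ
      rw [Matrix.det_mul, h0, mul_zero, Matrix.det_one] at h1
      exact zero_ne_one h1
    obtain ⟨c, hc⟩ := IsAlgClosed.exists_pow_nat_eq (Q.det)⁻¹ hr
    have hc1 : (c • Q).det = 1 := by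
      rw [Matrix.det_smul, Fintype.card_fin, hc, inv_mul_cancel₀ hdet]
    obtain ⟨g, hg⟩ : ∃ g : Matrix.SpecialLinearGroup (Fin r) ℂ, g.1 = c • Q := ⟨⟨c • Q, hc1⟩, rfl⟩
    refine ⟨g, fun A => ?_⟩
    have hPg : (g⁻¹).1 = (g.1)⁻¹ := by
      rw [Matrix.inv_eq_right_inv]
      exact congrArg Subtype.val (mul_inv_cancel g)
    have h1 : (g * A * g⁻¹).1 = g.1 * A.1 * (g⁻¹).1 := rfl
    have hc0 : c ≠ 0 := by
      rintro rfl
      rw [zero_pow hr.ne'] at hc
      exact inv_ne_zero hdet hc.symm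
    have h2 : (g.1)⁻¹ = c⁻¹ • P := by
      rw [hg]
      apply Matrix.inv_eq_right_inv
      rw [smul_mul_assoc, mul_smul_comm, hQP, smul_smul, mul_inv_cancel₀ hc0, one_smul]
    rw [h1, hPg, h2, hg, smul_mul_assoc, mul_smul_comm, smul_mul_assoc, smul_smul,
      inv_mul_cancel₀ hc0, one_smul]

/-- **A semisimple representation with integral traces is conjugate to an integral one.** -/
theorem bass [Finite ι] (X : ι → SpecialLinearGroup (Fin r) ℂ)
    (hss : ∀ W, IsInv X W → ∃ W', IsInv X W' ∧ IsCompl W W')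
    (htr : ∀ x, IsIntegral ℤ (FreeGroup.lift X x).1.trace) :
    ∃ g : SpecialLinearGroup (Fin r) ℂ, ∀ p i j, IsIntegral ℤ ((g * X p * g⁻¹).1 i j) := by
  obtain ⟨X₁, hX₁, hss₁, htr₁⟩ := exists_alg X hss fun x => (htr x).tower_top
  have hss' : ∀ X : ι → SpecialLinearGroup (Fin r) ℂ,
      (∀ W, IsInv X W → ∃ W', IsInv X W' ∧ IsCompl W W') →
      ∀ W : Submodule ℂ (Fin r → ℂ), (∀ z ∈ (⊤ : Subgroup (FreeGroup ι)), ∀ v ∈ W,
        (FreeGroup.lift X z).1.mulVec v ∈ W) →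
      ∃ W' : Submodule ℂ (Fin r → ℂ), (∀ z ∈ (⊤ : Subgroup (FreeGroup ι)), ∀ v ∈ W',
        (FreeGroup.lift X z).1.mulVec v ∈ W') ∧ IsCompl W W' := by
    intro X hX W hW
    obtain ⟨W', h1, h2⟩ := (ss_iff X).1 hX W fun z v hv => by
      rw [Matrix.toLin'_apply, matHom_apply]
      exact hW z (Subgroup.mem_top z) v hv
    refine ⟨W', fun z _ v hv => ?_, h2⟩
    have h3 := h1 z v hv
    rw [Matrix.toLin'_apply, matHom_apply] at h3
    exact h3
  obtain ⟨g₁, hg₁⟩ := H377.conj_of_trace (⊤ : Subgroup (FreeGroup ι)) (FreeGroup.lift X)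
    (FreeGroup.lift X₁) (hss' X hss) (hss' X₁ hss₁) (fun z _ => (htr₁ z).symm)
  obtain ⟨P, Q, hPQ, -, hint⟩ := int_of_alg X₁ hX₁ hss₁ fun x => by
    rw [htr₁]
    exact htr x
  obtain ⟨g₂, hg₂⟩ := exists_sl_scale P Q hPQ
  refine ⟨g₂ * g₁, fun p i j => ?_⟩
  have h1 : X₁ p = g₁ * X p * g₁⁻¹ := by
    have h2 := hg₁ (FreeGroup.of p) (Subgroup.mem_top _)
    rwa [FreeGroup.lift_apply_of, FreeGroup.lift_apply_of] at h2
  have h2 : g₂ * g₁ * X p * (g₂ * g₁)⁻¹ = g₂ * X₁ p * g₂⁻¹ := by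
    rw [h1]; group
  rw [h2, hg₂]
  exact hint p i j

end Vale.Agent.P002.H85
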