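import Vale.Agent.P002.H85.Trace

/-!
# Irreducible components in the Zariski topology of the character variety
-/

namespace Vale.Agent.P002.H85

open Matrix Vale.Agent.P002R.Orb Vale.Agent.P002.H326J Vale.Agent.P002.H252 NumberField

variable {ι : Type} {r : ℕ}

/-- The separation property of closed invariant sets by invariant functions. -/
def SepProp (ι : Type) (r : ℕ) : Prop :=
  ∀ (R : Set (FreeGroup ι)) (I : Ideal (MvPolynomial (ι × Fin r × Fin r) ℂ)),
    (∀ X, IsZero I X → ∀ P : SpecialLinearGroup (Fin r) ℂ, IsZero I (fun p => P * X p * P⁻¹)) →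
    ∀ X₀ : ι → SpecialLinearGroup (Fin r) ℂ, X₀ ∈ YNone R r → ¬ IsZero I X₀ →
    ∃ F : MvPolynomial (ι × Fin r × Fin r) ℂ, IsInvariant R F ∧
      (∀ X, IsZero I X → value F X = 0) ∧ value F X₀ ≠ 0

theorem value_mul (F G : MvPolynomial (ι × Fin r × Fin r) ℂ)
    (X : ι → SpecialLinearGroup (Fin r) ℂ) : value (F * G) X = value F X * value G X :=
  MvPolynomial.eval₂_mul ..

theorem inv_one (R : Set (FreeGroup ι)) :
    IsInvariant R (1 : MvPolynomial (ι × Fin r × Fin r) ℂ) := by
  intro A _ _ X P _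
  rw [value, value, MvPolynomial.eval₂_one, MvPolynomial.eval₂_one]

theorem inv_mul {R : Set (FreeGroup ι)} {F G : MvPolynomial (ι × Fin r × Fin r) ℂ}
    (hF : IsInvariant R F) (hG : IsInvariant R G) : IsInvariant R (F * G) := by
  intro A _ _ X P hX
  have h1 : ∀ X : ι → SpecialLinearGroup (Fin r) A, value (F * G) X = value F X * value G X :=
    fun X => MvPolynomial.eval₂_mul ..
  rw [h1, h1, hF A X P hX, hG A X P hX]

theorem inv_prod {R : Set (FreeGroup ι)} {κ : Type*} (s : Finset κ)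
    (F : κ → MvPolynomial (ι × Fin r × Fin r) ℂ) (hF : ∀ k ∈ s, IsInvariant R (F k)) :
    IsInvariant R (∏ k ∈ s, F k) := by
  classical
  induction s using Finset.induction_on with
  | empty => exact inv_one R
  | insert a s ha ih =>
    rw [Finset.prod_insert ha]
    exact inv_mul (hF a (Finset.mem_insert_self _ _))
      (ih fun k hk => hF k (Finset.mem_insert_of_mem hk))

theorem value_prod {κ : Type*} (s : Finset κ)
    (F : κ → MvPolynomial (ι × Fin r × Fin r) ℂ) (X : ι → SpecialLinearGroup (Fin r) ℂ) :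
    value (∏ k ∈ s, F k) X = ∏ k ∈ s, value (F k) X := by
  rw [value_eq, map_prod]
  rfl

theorem closureIn_subset (R : Set (FreeGroup ι)) (T S : Set (ι → SpecialLinearGroup (Fin r) ℂ)) :
    closureIn R T S ⊆ T := fun _ h => h.1

theorem subset_closureIn (R : Set (FreeGroup ι)) {T S : Set (ι → SpecialLinearGroup (Fin r) ℂ)}
    (h : S ⊆ T) : S ⊆ closureIn R T S := fun X hX => ⟨h hX, fun _ _ hF => hF X hX⟩

theorem closureIn_mono (R : Set (FreeGroup ι)) {T S S' : Set (ι → SpecialLinearGroup (Fin r) ℂ)}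
    (h : S ⊆ S') : closureIn R T S ⊆ closureIn R T S' := fun _ hX =>
  ⟨hX.1, fun F hF h' => hX.2 F hF fun Y hY => h' Y (h hY)⟩

/-- irreducible sets are contained in one member of a finite covering by closed sets -/
theorem IsIrr.exists_subset {R : Set (FreeGroup ι)} {T V : Set (ι → SpecialLinearGroup (Fin r) ℂ)}
    (hV : IsIrr R V) (hVT : V ⊆ T) {κ : Type*} (s : Finset κ)
    (P : κ → Set (ι → SpecialLinearGroup (Fin r) ℂ)) (hP : ∀ k ∈ s, closureIn R T (P k) = P k)
    (hcov : ∀ X ∈ V, ∃ k ∈ s, X ∈ P k) : ∃ k ∈ s, V ⊆ P k := by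
  classical
  by_contra hcon
  push Not at hcon
  have h1 : ∀ k ∈ s, ∃ F : MvPolynomial (ι × Fin r × Fin r) ℂ, IsInvariant R F ∧
      (∀ X ∈ P k, value F X = 0) ∧ ∃ X ∈ V, value F X ≠ 0 := by
    intro k hk
    obtain ⟨X, hX, hXP⟩ := Set.not_subset.1 (hcon k hk)
    rw [← hP k hk] at hXP
    have h2 : ¬ ∀ F : MvPolynomial (ι × Fin r × Fin r) ℂ, IsInvariant R F →
      (∀ X' ∈ P k, value F X' = 0) → value F X = 0 := fun h => hXP ⟨hVT hX, h⟩
    push Not at h2
    obtain ⟨F, hF, hFP, hFX⟩ := h2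
    exact ⟨F, hF, hFP, X, hX, hFX⟩
  choose! F hF hFP hFV using h1
  have key : ∀ t ⊆ s, ∃ X ∈ V, value (∏ k ∈ t, F k) X ≠ 0 := by
    intro t
    induction t using Finset.induction_on with
    | empty =>
      intro _
      obtain ⟨X, hX⟩ := hV.1
      refine ⟨X, hX, ?_⟩
      rw [Finset.prod_empty, value, MvPolynomial.eval₂_one]
      exact one_ne_zero
    | insert a t ha ih =>
      intro hts
      by_contra hcon
      push Not at hcon
      have hat : a ∈ s := hts (Finset.mem_insert_self _ _)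
      have hts' : t ⊆ s := fun k hk => hts (Finset.mem_insert_of_mem hk)
      have h3 := hV.2 (F a) (∏ k ∈ t, F k) (hF a hat)
        (inv_prod t F fun k hk => hF k (hts' hk)) (fun X hX => by
          have h4 := hcon X hX
          rw [Finset.prod_insert ha, value_mul] at h4
          exact mul_eq_zero.1 h4)
      rcases h3 with h3 | h3
      · obtain ⟨X, hX, hFX⟩ := hFV a hat
        exact hFX (h3 X hX)
      · obtain ⟨X, hX, hFX⟩ := ih hts'
        exact hFX (h3 X hX)
  obtain ⟨X, hX, hFX⟩ := key s subset_rfl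
  obtain ⟨k, hk, hkX⟩ := hcov X hX
  apply hFX
  rw [value_prod, Finset.prod_eq_zero hk (hFP k hk X hkX)]

section parts

variable [Finite ι] {R : Set (FreeGroup ι)} {T : Set (ι → SpecialLinearGroup (Fin r) ℂ)}

/-- a polynomial which vanishes on the part of `T` on a component belongs to its ideal -/
theorem mem_of_vanish {I : Ideal (MvPolynomial (ι × Fin r × Fin r) ℂ)} (hI : IsComponent T I)
    {F : MvPolynomial (ι × Fin r × Fin r) ℂ} (hF : ∀ X ∈ part T I, value F X = 0) : F ∈ I := by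
  obtain ⟨G, hG, hsep⟩ := exists_sep hI
  have hprime : I.IsPrime := hI.1.1
  have h1 : F * G ∈ vanIdeal T := by
    intro X hX
    rw [value_mul]
    by_cases hGX : value G X = 0
    · rw [hGX, mul_zero]
    · rw [hF X ⟨hX, hsep X hX hGX⟩, zero_mul]
  exact (hprime.mem_or_mem (hI.1.2 h1)).resolve_right hG

theorem isIrr_part {I : Ideal (MvPolynomial (ι × Fin r × Fin r) ℂ)} (hI : IsComponent T I) :
    IsIrr R (part T I) := by
  have hprime : I.IsPrime := hI.1.1
  refine ⟨?_, fun F G _ _ h => ?_⟩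
  · by_contra hcon
    rw [Set.not_nonempty_iff_eq_empty] at hcon
    apply hprime.ne_top
    rw [Ideal.eq_top_iff_one]
    refine mem_of_vanish hI fun X hX => ?_
    rw [hcon] at hX
    exact absurd hX (Set.notMem_empty X)
  · have h1 : F * G ∈ I := mem_of_vanish hI fun X hX => by
      rw [value_mul]
      exact mul_eq_zero.2 (h X hX)
    rcases hprime.mem_or_mem h1 with h2 | h2
    · exact Or.inl fun X hX => hX.2 F h2
    · exact Or.inr fun X hX => hX.2 G h2

omit [Finite ι] in
theorem exists_part {X : ι → SpecialLinearGroup (Fin r) ℂ} (hX : X ∈ T) :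
    ∃ I, IsComponent T I ∧ X ∈ part T I := by
  have h1 : vanIdeal T ≤ RingHom.ker (MvPolynomial.eval (coords X)) := fun F hF => hF X hX
  have h2 : (RingHom.ker (MvPolynomial.eval (coords X))).IsPrime := RingHom.ker_isPrime _
  obtain ⟨I, hI, hIX⟩ := Ideal.exists_minimalPrimes_le h1
  exact ⟨I, hI, hX, fun F hF => hIX hF⟩

/-- invariance under conjugation by elements of `SL_r` -/
theorem isZero_sl (hT : ∀ U, ∀ X ∈ T, conjX U X ∈ T)
    {I : Ideal (MvPolynomial (ι × Fin r × Fin r) ℂ)} (hI : IsComponent T I)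
    {X : ι → SpecialLinearGroup (Fin r) ℂ} (hX : IsZero I X) (P : SpecialLinearGroup (Fin r) ℂ) :
    IsZero I (fun p => P * X p * P⁻¹) := by
  have h1 : P.1 * (P⁻¹).1 = 1 := congrArg Subtype.val (mul_inv_cancel P)
  have h2 : (P⁻¹).1 * P.1 = 1 := congrArg Subtype.val (inv_mul_cancel P)
  have h3 := isZero_conj hT hI ⟨P.1, (P⁻¹).1, h1, h2⟩ hX
  exact h3

/-- semisimple points of the closure are zeros of the ideal -/
theorem isZero_of_closure (hsep : SepProp ι r) (hT : ∀ U, ∀ X ∈ T, conjX U X ∈ T)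
    {I : Ideal (MvPolynomial (ι × Fin r × Fin r) ℂ)} (hI : IsComponent T I)
    {X : ι → SpecialLinearGroup (Fin r) ℂ} (hX : X ∈ closureIn R (YNone R r) (part T I)) :
    IsZero I X := by
  by_contra hcon
  obtain ⟨F, hF, hFI, hFX⟩ := hsep R I (fun X hX P => isZero_sl hT hI hX P) X hX.1 hcon
  exact hFX (hX.2 F hF fun X' hX' => hFI X' hX'.2)

theorem closed_part (hsep : SepProp ι r) (hT : ∀ U, ∀ X ∈ T, conjX U X ∈ T)
    (hTR : T ⊆ YNone R r)
    {I : Ideal (MvPolynomial (ι × Fin r × Fin r) ℂ)} (hI : IsComponent T I) :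
    closureIn R T (part T I) = part T I := by
  apply subset_antisymm
  · intro X hX
    exact ⟨hX.1, isZero_of_closure hsep hT hI ⟨hTR hX.1, hX.2⟩⟩
  · exact subset_closureIn R fun X hX => hX.1

/-- the irreducible components are the parts on the components of the closure -/
theorem irrComp_iff (hsep : SepProp ι r) (hT : ∀ U, ∀ X ∈ T, conjX U X ∈ T)
    (hTR : T ⊆ YNone R r) (V : Set (ι → SpecialLinearGroup (Fin r) ℂ)) :
    IsIrrComp R T V ↔ ∃ I, IsComponent T I ∧ V = part T I := by
  classical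
  have hfin : (vanIdeal T).minimalPrimes.Finite :=
    Ideal.finite_minimalPrimes_of_isNoetherianRing _ _
  have hex : ∀ V' : Set (ι → SpecialLinearGroup (Fin r) ℂ), closureIn R T V' = V' → IsIrr R V' →
      ∃ I, IsComponent T I ∧ V' ⊆ part T I := by
    intro V' hV' hirr
    have hVT : V' ⊆ T := by rw [← hV']; exact closureIn_subset R T V'
    obtain ⟨I, hI, hVI⟩ := hirr.exists_subset hVT hfin.toFinset (fun I => part T I)
      (fun I hI => closed_part hsep hT hTR ((Set.Finite.mem_toFinset _).1 hI)) (by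
        intro X hX
        obtain ⟨I, hI, hIX⟩ := exists_part (hVT hX)
        exact ⟨I, (Set.Finite.mem_toFinset _).2 hI, hIX⟩)
    exact ⟨I, (Set.Finite.mem_toFinset _).1 hI, hVI⟩
  constructor
  · rintro ⟨h1, h2, h3⟩
    obtain ⟨I, hI, hVI⟩ := hex V h1 h2
    exact ⟨I, hI, (h3 _ (closed_part hsep hT hTR hI) (isIrr_part hI) hVI).symm⟩
  · rintro ⟨I, hI, rfl⟩
    refine ⟨closed_part hsep hT hTR hI, isIrr_part hI, fun V' h1 h2 h3 => ?_⟩
    obtain ⟨J, hJ, hVJ⟩ := hex V' h1 h2
    have h4 : J ≤ I := fun F hF => mem_of_vanish hI fun X hX => (hVJ (h3 hX)).2 F hF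
    have h5 : J = I := le_antisymm h4 (hI.2 hJ.1 h4)
    rw [h5] at hVJ
    exact subset_antisymm hVJ h3

end parts

end Vale.Agent.P002.H85
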