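import Vale.Agent.P002.H85.Dens

/-!
# Components of conjugation-invariant sets are conjugation-invariant
-/

namespace Vale.Agent.P002.H85

open Matrix Vale.Agent.P002R.Orb Vale.Agent.P002.H326J Vale.Agent.P002.H252

variable {ι : Type} {r : ℕ}

/-- simultaneous conjugation of a point of the affine space -/
def conjPt (U : (Matrix (Fin r) (Fin r) ℂ)ˣ) (x : ι × Fin r × Fin r → ℂ) :
    ι × Fin r × Fin r → ℂ :=
  fun q => (U.1 * (Matrix.of fun i j => x (q.1, i, j)) * (U⁻¹).1) q.2.1 q.2.2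

/-- simultaneous conjugation -/
def conjX (U : (Matrix (Fin r) (Fin r) ℂ)ˣ) (X : ι → SpecialLinearGroup (Fin r) ℂ) :
    ι → SpecialLinearGroup (Fin r) ℂ :=
  fun p => ⟨U.1 * (X p).1 * (U⁻¹).1, by
    rw [Matrix.det_mul, Matrix.det_mul, (X p).2, mul_one, ← Matrix.det_mul, ← Units.val_mul,
      mul_inv_cancel, Units.val_one, Matrix.det_one]⟩

theorem coords_conjX (U : (Matrix (Fin r) (Fin r) ℂ)ˣ) (X : ι → SpecialLinearGroup (Fin r) ℂ) :
    coords (conjX U X) = conjPt U (coords X) := rfl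

theorem conjPt_mul (U V : (Matrix (Fin r) (Fin r) ℂ)ˣ) (x : ι × Fin r × Fin r → ℂ) :
    conjPt (U * V) x = conjPt U (conjPt V x) := by
  funext q
  have h1 : (Matrix.of fun i j => conjPt V x (q.1, i, j)) =
      V.1 * (Matrix.of fun i j => x (q.1, i, j)) * (V⁻¹).1 := rfl
  change ((U * V).1 * (Matrix.of fun i j => x (q.1, i, j)) * ((U * V)⁻¹).1) q.2.1 q.2.2 =
    (U.1 * (Matrix.of fun i j => conjPt V x (q.1, i, j)) * (U⁻¹).1) q.2.1 q.2.2
  rw [h1, _root_.mul_inv_rev, Units.val_mul, Units.val_mul]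
  simp only [Matrix.mul_assoc]

theorem conjPt_one (x : ι × Fin r × Fin r → ℂ) : conjPt 1 x = x := by
  funext q
  change ((1 : Matrix (Fin r) (Fin r) ℂ) * (Matrix.of fun i j => x (q.1, i, j)) *
    ((1 : (Matrix (Fin r) (Fin r) ℂ)ˣ)⁻¹).1) q.2.1 q.2.2 = _
  rw [inv_one, Units.val_one, Matrix.mul_one, Matrix.one_mul]
  rfl

theorem conjX_mul (U V : (Matrix (Fin r) (Fin r) ℂ)ˣ) (X : ι → SpecialLinearGroup (Fin r) ℂ) :
    conjX (U * V) X = conjX U (conjX V X) := by
  funext p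
  apply Subtype.ext
  change (U * V).1 * (X p).1 * ((U * V)⁻¹).1 = U.1 * (V.1 * (X p).1 * (V⁻¹).1) * (U⁻¹).1
  rw [_root_.mul_inv_rev, Units.val_mul, Units.val_mul]
  simp only [Matrix.mul_assoc]

theorem conjX_inv_conjX (U : (Matrix (Fin r) (Fin r) ℂ)ˣ)
    (X : ι → SpecialLinearGroup (Fin r) ℂ) : conjX U (conjX U⁻¹ X) = X := by
  rw [← conjX_mul, mul_inv_cancel]
  funext p
  apply Subtype.ext
  change (1 : Matrix (Fin r) (Fin r) ℂ) * (X p).1 *
    ((1 : (Matrix (Fin r) (Fin r) ℂ)ˣ)⁻¹).1 = (X p).1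
  rw [inv_one, Units.val_one, Matrix.mul_one, Matrix.one_mul]

/-- the action on polynomials -/
noncomputable def conjHom (U : (Matrix (Fin r) (Fin r) ℂ)ˣ) :
    MvPolynomial (ι × Fin r × Fin r) ℂ →ₐ[ℂ] MvPolynomial (ι × Fin r × Fin r) ℂ :=
  MvPolynomial.aeval fun q => ∑ l, (∑ k, MvPolynomial.C (U.1 q.2.1 k) *
    MvPolynomial.X (q.1, k, l)) * MvPolynomial.C ((U⁻¹).1 l q.2.2)

theorem eval_conjHom (U : (Matrix (Fin r) (Fin r) ℂ)ˣ) (x : ι × Fin r × Fin r → ℂ)
    (F : MvPolynomial (ι × Fin r × Fin r) ℂ) :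
    MvPolynomial.eval x (conjHom U F) = MvPolynomial.eval (conjPt U x) F := by
  have h1 : ((MvPolynomial.aeval x : MvPolynomial (ι × Fin r × Fin r) ℂ →ₐ[ℂ] ℂ).comp
      (conjHom U)) = MvPolynomial.aeval (conjPt U x) := by
    apply MvPolynomial.algHom_ext
    intro q
    rw [AlgHom.comp_apply, conjHom, MvPolynomial.aeval_X, MvPolynomial.aeval_X]
    simp only [map_sum, map_mul, MvPolynomial.aeval_C, MvPolynomial.aeval_X]
    rfl
  have h2 := congrArg (fun f => f F) h1
  exact h2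

theorem value_conjHom (U : (Matrix (Fin r) (Fin r) ℂ)ˣ) (X : ι → SpecialLinearGroup (Fin r) ℂ)
    (F : MvPolynomial (ι × Fin r × Fin r) ℂ) :
    value (conjHom U F) X = value F (conjX U X) := by
  rw [value_eq, eval_conjHom, ← coords_conjX, ← value_eq]

theorem conjHom_mul (U V : (Matrix (Fin r) (Fin r) ℂ)ˣ)
    (F : MvPolynomial (ι × Fin r × Fin r) ℂ) :
    conjHom (U * V) F = conjHom V (conjHom U F) := by
  apply MvPolynomial.funext
  intro x
  rw [eval_conjHom, eval_conjHom, eval_conjHom, conjPt_mul]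

theorem conjHom_one (F : MvPolynomial (ι × Fin r × Fin r) ℂ) : conjHom 1 F = F := by
  apply MvPolynomial.funext
  intro x
  rw [eval_conjHom, conjPt_one]

/-- the action on ideals -/
noncomputable def conjI (U : (Matrix (Fin r) (Fin r) ℂ)ˣ)
    (I : Ideal (MvPolynomial (ι × Fin r × Fin r) ℂ)) :
    Ideal (MvPolynomial (ι × Fin r × Fin r) ℂ) := I.comap (conjHom U)

theorem mem_conjI {U : (Matrix (Fin r) (Fin r) ℂ)ˣ}
    {I : Ideal (MvPolynomial (ι × Fin r × Fin r) ℂ)} {F : MvPolynomial (ι × Fin r × Fin r) ℂ} :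
    F ∈ conjI U I ↔ conjHom U F ∈ I := Iff.rfl

theorem conjI_mul (U V : (Matrix (Fin r) (Fin r) ℂ)ˣ)
    (I : Ideal (MvPolynomial (ι × Fin r × Fin r) ℂ)) :
    conjI (U * V) I = conjI U (conjI V I) := by
  ext F
  rw [mem_conjI, mem_conjI, mem_conjI, conjHom_mul]

theorem conjI_one (I : Ideal (MvPolynomial (ι × Fin r × Fin r) ℂ)) : conjI 1 I = I := by
  ext F
  rw [mem_conjI, conjHom_one]

theorem conjHom_surjective (U : (Matrix (Fin r) (Fin r) ℂ)ˣ) :
    Function.Surjective (conjHom (ι := ι) U) := fun F =>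
  ⟨conjHom U⁻¹ F, by rw [← conjHom_mul, inv_mul_cancel, conjHom_one]⟩

theorem conjI_vanIdeal {T : Set (ι → SpecialLinearGroup (Fin r) ℂ)}
    (hT : ∀ U, ∀ X ∈ T, conjX U X ∈ T) (U : (Matrix (Fin r) (Fin r) ℂ)ˣ) :
    conjI U (vanIdeal T) = vanIdeal T := by
  ext F
  rw [mem_conjI, mem_vanIdeal, mem_vanIdeal]
  constructor
  · intro h X hX
    have h1 := h _ (hT U⁻¹ X hX)
    rwa [value_conjHom, conjX_inv_conjX] at h1
  · intro h X hX
    rw [value_conjHom]
    exact h _ (hT U X hX)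

theorem conjI_component {T : Set (ι → SpecialLinearGroup (Fin r) ℂ)}
    (hT : ∀ U, ∀ X ∈ T, conjX U X ∈ T) (U : (Matrix (Fin r) (Fin r) ℂ)ˣ)
    {I : Ideal (MvPolynomial (ι × Fin r × Fin r) ℂ)} (hI : IsComponent T I) :
    IsComponent T (conjI U I) := by
  have h1 := Ideal.minimalPrimes_comap_of_surjective (f := (conjHom (ι := ι) U).toRingHom)
    (conjHom_surjective U) hI
  have h2 : Ideal.comap (conjHom (ι := ι) U).toRingHom (vanIdeal T) = vanIdeal T :=
    conjI_vanIdeal hT U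
  rw [h2] at h1
  exact h1

theorem transvection_pow {i j : Fin r} (hij : i ≠ j) (c : ℂ) (n : ℕ) :
    (Matrix.transvection i j c) ^ n = Matrix.transvection i j (n * c) := by
  induction n with
  | zero => simp
  | succ n ih =>
    rw [pow_succ, ih, Matrix.transvection_mul_transvection_same _ _ hij]
    congr 1
    push_cast
    ring

/-- **The components of a conjugation-invariant set are conjugation-invariant.** -/
theorem component_conj [Finite ι] {T : Set (ι → SpecialLinearGroup (Fin r) ℂ)}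
    (hT : ∀ U, ∀ X ∈ T, conjX U X ∈ T)
    {I : Ideal (MvPolynomial (ι × Fin r × Fin r) ℂ)} (hI : IsComponent T I)
    (U : (Matrix (Fin r) (Fin r) ℂ)ˣ) : conjI U I = I := by
  classical
  have hfin : (vanIdeal T).minimalPrimes.Finite :=
    Ideal.finite_minimalPrimes_of_isNoetherianRing _ _
  have := hfin.to_subtype
  let _ : MulAction (Matrix (Fin r) (Fin r) ℂ)ˣ (vanIdeal T).minimalPrimes :=
    { smul := fun U J => ⟨conjI U J.1, conjI_component hT U J.2⟩
      one_smul := fun J => Subtype.ext (conjI_one _)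
      mul_smul := fun U V J => Subtype.ext (conjI_mul U V J.1) }
  have hsm : ∀ (U : (Matrix (Fin r) (Fin r) ℂ)ˣ) (J : (vanIdeal T).minimalPrimes),
      (U • J).1 = conjI U J.1 := fun _ _ => rfl
  obtain ⟨N, hN0, hN⟩ : ∃ N : ℕ, 0 < N ∧ ∀ V : (Matrix (Fin r) (Fin r) ℂ)ˣ,
      conjI (V ^ N) I = I := by
    refine ⟨Nat.card (Equiv.Perm (vanIdeal T).minimalPrimes), Nat.card_pos, fun V => ?_⟩
    have h1 : (MulAction.toPermHom (Matrix (Fin r) (Fin r) ℂ)ˣ (vanIdeal T).minimalPrimes V) ^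
        (Nat.card (Equiv.Perm (vanIdeal T).minimalPrimes)) = 1 := pow_card_eq_one'
    rw [← map_pow] at h1
    have h2 := congrArg (fun e : Equiv.Perm (vanIdeal T).minimalPrimes => (e ⟨I, hI⟩).1) h1
    exact h2
  have key : ∀ M : Matrix (Fin r) (Fin r) ℂ, M.det ≠ 0 →
      ∀ U : (Matrix (Fin r) (Fin r) ℂ)ˣ, U.1 = M → conjI U I = I := by
    intro M hM
    refine Matrix.diagonal_transvection_induction_of_det_ne_zero
      (fun M => ∀ U : (Matrix (Fin r) (Fin r) ℂ)ˣ, U.1 = M → conjI U I = I) M hM ?_ ?_ ?_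
    · intro D hD U hU
      rw [Matrix.det_diagonal, Finset.prod_ne_zero_iff] at hD
      choose E hE using fun i => IsAlgClosed.exists_pow_nat_eq (D i) hN0
      have hE0 : ∀ i, E i ≠ 0 := by
        intro i h0
        apply hD i (Finset.mem_univ i)
        rw [← hE, h0, zero_pow hN0.ne']
      obtain ⟨V, hV⟩ : ∃ V : (Matrix (Fin r) (Fin r) ℂ)ˣ, V.1 = Matrix.diagonal E := by
        have h1 : IsUnit (Matrix.diagonal E) := by
          rw [Matrix.isUnit_iff_isUnit_det, Matrix.det_diagonal, isUnit_iff_ne_zero,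
            Finset.prod_ne_zero_iff]
          exact fun i _ => hE0 i
        exact ⟨h1.unit, rfl⟩
      have h1 : U = V ^ N := by
        apply Units.ext
        rw [Units.val_pow_eq_pow_val, hU, hV, Matrix.diagonal_pow]
        congr 1
        funext i
        exact (hE i).symm
      rw [h1]
      exact hN V
    · intro t U hU
      have hNC : (N : ℂ) ≠ 0 := by exact_mod_cast hN0.ne'
      have h1 : t.toMatrix = (Matrix.transvection t.i t.j (t.c / N)) ^ N := by
        rw [transvection_pow t.hij, mul_div_cancel₀ _ hNC]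
        rfl
      obtain ⟨V, hV⟩ : ∃ V : (Matrix (Fin r) (Fin r) ℂ)ˣ,
          V.1 = Matrix.transvection t.i t.j (t.c / N) := by
        have h1 : IsUnit (Matrix.transvection t.i t.j (t.c / (N : ℂ))) := by
          rw [Matrix.isUnit_iff_isUnit_det, Matrix.det_transvection_of_ne _ _ t.hij]
          exact isUnit_one
        exact ⟨h1.unit, rfl⟩
      have h2 : U = V ^ N := by
        apply Units.ext
        rw [Units.val_pow_eq_pow_val, hU, hV, h1]
      rw [h2]
      exact hN V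
    · intro A B hA hB hPA hPB U hU
      obtain ⟨UA, hUA⟩ : ∃ V : (Matrix (Fin r) (Fin r) ℂ)ˣ, V.1 = A :=
        ⟨((Matrix.isUnit_iff_isUnit_det _).2 (isUnit_iff_ne_zero.2 hA)).unit, rfl⟩
      obtain ⟨UB, hUB⟩ : ∃ V : (Matrix (Fin r) (Fin r) ℂ)ˣ, V.1 = B :=
        ⟨((Matrix.isUnit_iff_isUnit_det _).2 (isUnit_iff_ne_zero.2 hB)).unit, rfl⟩
      have h1 : U = UA * UB := by
        apply Units.ext
        rw [Units.val_mul, hU, hUA, hUB]
      rw [h1, conjI_mul, hPB UB hUB, hPA UA hUA]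
  exact key U.1 ((Matrix.isUnit_iff_isUnit_det _).1 U.isUnit).ne_zero U rfl

/-- the zeros of the ideal of a component of a conjugation-invariant set -/
theorem isZero_conj [Finite ι] {T : Set (ι → SpecialLinearGroup (Fin r) ℂ)}
    (hT : ∀ U, ∀ X ∈ T, conjX U X ∈ T)
    {I : Ideal (MvPolynomial (ι × Fin r × Fin r) ℂ)} (hI : IsComponent T I)
    (U : (Matrix (Fin r) (Fin r) ℂ)ˣ) {X : ι → SpecialLinearGroup (Fin r) ℂ} (hX : IsZero I X) :
    IsZero I (conjX U X) := by
  intro F hF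
  rw [← value_conjHom]
  apply hX
  have h1 : F ∈ conjI U I := by rw [component_conj hT hI U]; exact hF
  exact h1

end Vale.Agent.P002.H85
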