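import Vale.Agent.P002.H85.Ext

/-!
# Integral points on a curve with one integral point
-/

namespace Vale.Agent.P002.H85

open Polynomial

/-- `K` is a field whose elements are quotients of algebraic integers by integers. -/
def Den (K : Type*) [Field K] : Prop := ∀ x : K, ∃ N : ℕ, N ≠ 0 ∧ IsIntegral ℤ ((N : K) * x)

theorem Den.finset {K : Type*} [Field K] (h : Den K) (s : Finset K) :
    ∃ N : ℕ, N ≠ 0 ∧ ∀ x ∈ s, ∀ M : ℕ, N ∣ M → IsIntegral ℤ ((M : K) * x) := by
  classical
  induction s using Finset.induction_on with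
  | empty => exact ⟨1, one_ne_zero, by simp⟩
  | insert a s ha ih =>
    obtain ⟨N, hN, h1⟩ := ih
    obtain ⟨N', hN', h2⟩ := h a
    refine ⟨N * N', mul_ne_zero hN hN', ?_⟩
    intro x hx M hM
    rcases Finset.mem_insert.1 hx with rfl | hx
    · obtain ⟨d, rfl⟩ := dvd_trans (dvd_mul_left N' N) hM
      rw [Nat.cast_mul, mul_comm (N' : K), mul_assoc]
      exact (IsIntegral.mul (by simpa using isIntegral_algebraMap (x := (d : ℤ))) h2)
    · exact h1 x hx M (dvd_trans (dvd_mul_right N N') hM)

variable {K k A : Type*} [Field K] [Field k] [IsAlgClosed k] [Algebra K k]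
  [CommRing A] [IsDomain A] [Algebra K A]

/-- The image of a monic equation `∑ b_i(s) y ^ i = 0` at `s = N`: if the `N b_i` have integral
coefficients, then `N y` is integral. -/
theorem integral_of_eq {p : K[X][X]} (hp : p.Monic) (N : ℕ)
    (hN : ∀ i j, IsIntegral ℤ ((N : K) * (p.coeff i).coeff j)) (y : k)
    (hy : (p.map (evalRingHom (N : K))).eval₂ (algebraMap K k) y = 0) :
    IsIntegral ℤ ((N : k) * y) := by
  set q : k[X] := (p.map (evalRingHom (N : K))).map (algebraMap K k) with hq
  have hqm : q.Monic := (hp.map _).map _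
  have hqy : q.eval y = 0 := by rw [hq, eval_map]; exact hy
  by_cases hdeg : q.natDegree = 0
  · rw [hqm.natDegree_eq_zero.1 hdeg, eval_one] at hqy
    exact absurd hqy one_ne_zero
  have h1 : (scaleRoots q (N : k)).eval ((N : k) * y) = 0 := by
    have := scaleRoots_eval₂_mul (p := q) (RingHom.id k) y (N : k)
    simp only [RingHom.id_apply, eval₂_id] at this
    rw [this, hqy, mul_zero]
  refine IsIntegral.of_aeval_monic_of_isIntegral_coeff (p := scaleRoots q (N : k))
    ((monic_scaleRoots_iff (N : k)).2 hqm) (by rw [natDegree_scaleRoots]; exact hdeg)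
    (by rw [h1]; exact isIntegral_zero) ?_
  intro i
  rw [coeff_scaleRoots]
  have hNint : IsIntegral ℤ (N : k) := by simpa using isIntegral_algebraMap (x := (N : ℤ))
  rcases lt_trichotomy i q.natDegree with h | h | h
  · obtain ⟨e, he⟩ : ∃ e, q.natDegree - i = e + 1 := ⟨q.natDegree - i - 1, by omega⟩
    rw [he, pow_succ', mul_comm, mul_assoc, mul_left_comm]
    refine IsIntegral.mul (hNint.pow _) ?_
    rw [hq, coeff_map, coeff_map, coe_evalRingHom, eval_eq_sum_range, map_sum, Finset.mul_sum]
    refine IsIntegral.sum _ fun j _ => ?_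
    rw [map_mul, map_pow, map_natCast, ← mul_assoc]
    refine IsIntegral.mul ?_ (hNint.pow _)
    have := (hN i j).map (algebraMap K k).toIntAlgHom
    simpa using this
  · rw [h, Nat.sub_self, pow_zero, mul_one, ← h, h]
    rw [hqm.coeff_natDegree]
    exact isIntegral_one
  · rw [coeff_eq_zero_of_natDegree_lt h, zero_mul]
    exact isIntegral_zero

end Vale.Agent.P002.H85
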