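import Vale.Agent.P002.H85.Curve

/-!
# Integral points on a curve with one integral point: the function `s`
-/

namespace Vale.Agent.P002.H85

open Polynomial

variable {K k A F : Type*} [Field K] [Field k] [IsAlgClosed k] [Algebra K k]
  [CommRing A] [Algebra K A] [Field F] [Algebra K F]

section

variable {m n : ℕ} {t γ : A} {u : Fin m → A}

theorem rel_map {Γ : Matrix (Fin m) (Fin m) K[X]}
    (hΓ : ∀ k, γ * u k = ∑ l, aeval t (Γ k l) * u l) {R : Type*} [CommRing R] [Algebra K R]
    (f : A →ₐ[K] R) (k : Fin m) : f γ * f (u k) = ∑ l, aeval (f t) (Γ k l) * f (u l) := by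
  rw [← map_mul, hΓ k, map_sum]
  refine Finset.sum_congr rfl fun l _ => ?_
  rw [map_mul, ← aeval_algHom_apply]

theorem eq_zero_of_mul (span : ∀ x, ∃ p : Fin m → K[X], x = ∑ j, aeval t (p j) * u j)
    {R : Type*} [CommRing R] [Algebra K R] (f : A →ₐ[K] R) (D : R)
    (hD : ∀ l, D * f (u l) = 0) : D = 0 := by
  obtain ⟨e, he⟩ := span 1
  have h1 : (1 : R) = ∑ l, aeval (f t) (e l) * f (u l) := by
    rw [← map_one f, he, map_sum]
    refine Finset.sum_congr rfl fun l _ => ?_
    rw [map_mul, ← aeval_algHom_apply]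
  calc D = D * 1 := (mul_one D).symm
    _ = ∑ l, aeval (f t) (e l) * (D * f (u l)) := by
      rw [h1, Finset.mul_sum]
      exact Finset.sum_congr rfl fun l _ => by ring
    _ = 0 := Finset.sum_eq_zero fun l _ => by rw [hD l, mul_zero]

theorem int_t (span : ∀ x, ∃ p : Fin m → K[X], x = ∑ j, aeval t (p j) * u j)
    (Γ : Matrix (Fin m) (Fin m) K[X]) (hΓdeg : ∀ k l, (Γ k l).degree < n)
    (hΓ : ∀ k, γ * u k = ∑ l, aeval t (Γ k l) * u l)
    (fF : A →ₐ[K] F) (s : F) (hsγ : fF t ^ n = s * fF γ) :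
    IsIntegral (aeval s : K[X] →ₐ[K] F).range (fF t) := by
  let s' : (aeval s : K[X] →ₐ[K] F).range := ⟨s, ⟨X, by simp⟩⟩
  refine ⟨Dpoly Γ n s', (Dpoly_monic Γ n hΓdeg s').1, ?_⟩
  have h1 := Dpoly_map Γ n s' (aeval s : K[X] →ₐ[K] F).range.val
  have h2 : (Dpoly Γ n s').eval₂ (algebraMap (aeval s : K[X] →ₐ[K] F).range F) (fF t) =
      (Dpoly Γ n s).eval (fF t) := by
    rw [← eval_map]
    congr 1
  rw [h2]
  refine eq_zero_of_mul span fF _ fun l => ?_
  exact Dpoly_root Γ s (fF t) (fF γ) (fun l => fF (u l)) (rel_map hΓ fF) hsγ l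

theorem int_a (span : ∀ x, ∃ p : Fin m → K[X], x = ∑ j, aeval t (p j) * u j)
    (fF : A →ₐ[K] F) (s : F) (htF : IsIntegral (aeval s : K[X] →ₐ[K] F).range (fF t)) (a : A) :
    IsIntegral (aeval s : K[X] →ₐ[K] F).range (fF a) := by
  set S : Subalgebra K F := (aeval s : K[X] →ₐ[K] F).range
  let O := integralClosure S F
  obtain ⟨χ, hχ, hχa⟩ := aeval_integral t u span a
  let tO : O := ⟨fF t, htF⟩
  let f : K[X] →+* O := (aeval tO : K[X] →ₐ[K] O).toRingHom
  have h1 : (algebraMap O F).comp f = (fF : A →+* F).comp (aeval t : K[X] →ₐ[K] A).toRingHom := by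
    ext z
    · simp only [f, RingHom.comp_apply, AlgHom.toRingHom_eq_coe, RingHom.coe_coe, aeval_C,
        AlgHom.commutes]
      rfl
    · simp only [f, RingHom.comp_apply, AlgHom.toRingHom_eq_coe, RingHom.coe_coe, aeval_X]
      rfl
  have h2 : IsIntegral O (fF a) := by
    refine ⟨χ.map f, hχ.map _, ?_⟩
    rw [eval₂_map, h1]
    have := hom_eval₂ χ (aeval t : K[X] →ₐ[K] A).toRingHom (fF : A →+* F) a
    rw [hχa, map_zero] at this
    exact this.symm
  exact isIntegral_trans (R := S) (A := O) (fF a) h2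

theorem inj_s (inj : ∀ p : K[X], aeval t p = 0 → p = 0) (fF : A →ₐ[K] F)
    (hfF : Function.Injective fF) (s : F)
    (htF : IsIntegral (aeval s : K[X] →ₐ[K] F).range (fF t)) :
    Function.Injective (aeval s : K[X] →ₐ[K] F) := by
  rw [injective_iff_map_eq_zero]
  intro r hr
  by_contra hr0
  have hsK : IsIntegral K s := (IsAlgebraic.isIntegral ⟨r, hr0, hr⟩)
  have hSK : Algebra.IsIntegral K (aeval s : K[X] →ₐ[K] F).range := by
    constructor
    rintro ⟨y, z, rfl⟩
    have h1 : IsIntegral K ((aeval s : K[X] →ₐ[K] F) z) := by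
      have h2 : (aeval s : K[X] →ₐ[K] F) z ∈ Algebra.adjoin K {s} :=
        aeval_mem_adjoin_singleton K s
      have h3 : Algebra.adjoin K {s} ≤ integralClosure K F := by
        refine Algebra.adjoin_le ?_
        rintro _ rfl
        exact hsK
      exact h3 h2
    exact (isIntegral_algHom_iff (aeval s : K[X] →ₐ[K] F).range.val Subtype.val_injective).1 h1
  have htK : IsIntegral K (fF t) :=
    isIntegral_trans (R := K) (A := (aeval s : K[X] →ₐ[K] F).range) _ htF
  obtain ⟨r', hr', hr't⟩ := (isIntegral_algHom_iff fF hfF).1 htK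
  exact hr'.ne_zero (inj r' hr't)

end

/-- The homomorphisms with `s = N`. -/
theorem exists_psi (fF : A →ₐ[K] F) (hfF : Function.Injective fF) (s : F)
    (hAint : ∀ a, IsIntegral (aeval s : K[X] →ₐ[K] F).range (fF a))
    (hsinj : Function.Injective (aeval s : K[X] →ₐ[K] F)) (g : A) (hg : g ≠ 0) {n₀ : ℕ}
    (c : Fin n₀ → A) :
    ∃ r : K[X], r ≠ 0 ∧ ∃ b : Fin n₀ → K[X][X], (∀ i, (b i).Monic) ∧
      ∀ N : ℕ, r.eval (N : K) ≠ 0 → ∃ ψ : A →ₐ[K] k, ψ g ≠ 0 ∧
        (∀ i, ((b i).map (evalRingHom (N : K))).eval₂ (algebraMap K k) (ψ (c i)) = 0) ∧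
        ∀ y z, fF y = s * fF z → ψ y = N * ψ z := by
  classical
  set S : Subalgebra K F := (aeval s : K[X] →ₐ[K] F).range
  let O : Subalgebra S F := integralClosure S F
  let s' : S := ⟨s, ⟨X, by simp⟩⟩
  let e : K[X] ≃ₐ[K] S := AlgEquiv.ofInjective (aeval s) hsinj
  have he : ∀ z : K[X], ((e z : S) : F) = aeval s z := fun z => rfl
  have heX : e X = s' := Subtype.ext (by rw [he]; simp [s'])
  let j : A →ₐ[K] O :=
    { toFun := fun a => ⟨fF a, hAint a⟩
      map_one' := Subtype.ext (map_one fF)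
      map_mul' := fun a b => Subtype.ext (map_mul fF a b)
      map_zero' := Subtype.ext (map_zero fF)
      map_add' := fun a b => Subtype.ext (map_add fF a b)
      commutes' := fun a => Subtype.ext (AlgHom.commutes fF a) }
  have hj : Function.Injective j := fun a b hab => hfF (congrArg Subtype.val hab)
  have hinjSO : Function.Injective (algebraMap S O) := by
    intro a b hab
    have := congrArg (algebraMap O F) hab
    exact Subtype.ext this
  have hceq : ∀ i, ∃ b : K[X][X], b.Monic ∧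
      b.eval₂ ((algebraMap S O).comp (e : K[X] →+* S)) (j (c i)) = 0 := by
    intro i
    obtain ⟨b, hb, hb2⟩ := Algebra.IsIntegral.isIntegral (R := S) (A := O) (j (c i))
    refine ⟨b.map (e.symm : S →+* K[X]), hb.map _, ?_⟩
    rw [eval₂_map, RingHom.comp_assoc]
    have h1 : ((e : K[X] →+* S)).comp (e.symm : S →+* K[X]) = RingHom.id S := by
      ext z
      simp
    rw [h1, RingHom.comp_id]
    exact hb2
  choose b hbm hb using hceq
  obtain ⟨r, hr0, hrg⟩ : ∃ r : K[X], r ≠ 0 ∧ algebraMap S O (e r) ∈ Ideal.span {j g} := by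
    have h0 : IsIntegral S (j g) :=
      Algebra.IsIntegral.isIntegral (R := S) (A := O) (j g)
    have h1 := Ideal.comap_ne_bot_of_integral_mem (R := S) (S := O) (I := Ideal.span {j g})
      (x := j g) (fun h => hg (hj (by rw [h, map_zero]))) (Ideal.mem_span_singleton_self _) h0
    obtain ⟨y, hy, hy0⟩ := Submodule.exists_mem_ne_zero_of_ne_bot h1
    refine ⟨e.symm y, fun h => hy0 ?_, ?_⟩
    · have := congrArg e h
      simpa using this
    · rw [AlgEquiv.apply_symm_apply]; exact hy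
  refine ⟨r, hr0, b, hbm, fun N hNr => ?_⟩
  let φ : S →ₐ[K] K := (aeval (N : K) : K[X] →ₐ[K] K).comp (e.symm : S →ₐ[K] K[X])
  have hφe : ∀ z, φ (e z) = z.eval (N : K) := by
    intro z
    simp [φ, coe_aeval_eq_eval]
  obtain ⟨ψ, hψ⟩ := exists_hom_of_integral (k := k) hinjSO φ
  have hψs : ψ (algebraMap S O s') = (N : k) := by
    rw [hψ, ← heX, hφe, eval_X, map_natCast]
  refine ⟨ψ.comp j, ?_, ?_, ?_⟩
  · intro h
    obtain ⟨w, hw⟩ := Ideal.mem_span_singleton'.1 hrg
    have h1 := congrArg ψ hw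
    rw [map_mul, hψ, hφe] at h1
    have h2 : ψ (j g) = 0 := h
    rw [h2, mul_zero] at h1
    exact hNr ((map_eq_zero _).1 h1.symm)
  · intro i
    have h2 := congrArg ψ (hb i)
    have h3 := hom_eval₂ (b i) ((algebraMap S O).comp (e : K[X] →+* S)) (ψ : O →+* k) (j (c i))
    rw [eval₂_map]
    have h4 : (ψ : O →+* k).comp ((algebraMap S O).comp (e : K[X] →+* S)) =
        (algebraMap K k).comp (evalRingHom (N : K)) := by
      ext z
      · simp only [RingHom.comp_apply, RingHom.coe_coe, coe_evalRingHom, eval_C]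
        rw [hψ, hφe, eval_C]
      · simp only [RingHom.comp_apply, RingHom.coe_coe, coe_evalRingHom, eval_X]
        rw [hψ, hφe, eval_X]
    rw [← h4]
    rw [map_zero] at h2
    exact h3.symm.trans h2
  · intro y z hyz
    have h1 : j y = algebraMap S O s' * j z := Subtype.ext hyz
    change ψ (j y) = N * ψ (j z)
    rw [h1, map_mul, hψs]

end Vale.Agent.P002.H85
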