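import Vale.Agent.P002.H85.CurveMain

/-!
# Integral points on a curve with one integral point
-/

namespace Vale.Agent.P002.H85

open Polynomial

variable {K k A : Type*} [Field K] [Field k] [IsAlgClosed k] [Algebra K k]
  [CommRing A] [IsDomain A] [Algebra K A]

theorem gamma_matrix {m n c : ℕ} {t γ : A} {u : Fin m → A}
    (p : Fin m → K[X]) (hγp : γ = ∑ j, aeval t (p j) * u j)
    (hpdeg : ∀ j, (p j).natDegree + c < n)
    (mul : ∀ j k, ∃ p : Fin m → K[X], u j * u k = ∑ l, aeval t (p l) * u l ∧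
      ∀ l, (p l).natDegree ≤ c) :
    ∃ Γ : Matrix (Fin m) (Fin m) K[X], (∀ k l, (Γ k l).degree < n) ∧
      ∀ k, γ * u k = ∑ l, aeval t (Γ k l) * u l := by
  choose q hq hqd using mul
  refine ⟨fun k l => ∑ j, p j * q j k l, ?_, ?_⟩
  · intro k l
    refine lt_of_le_of_lt (degree_sum_le _ _) ?_
    rw [Finset.sup_lt_iff]
    · intro j _
      refine lt_of_le_of_lt (degree_mul_le _ _) ?_
      refine lt_of_le_of_lt (add_le_add degree_le_natDegree degree_le_natDegree) ?_
      have h1 := hpdeg j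
      have h2 := hqd j k l
      have h3 : (p j).natDegree + (q j k l).natDegree < n := by omega
      exact_mod_cast h3
    · exact WithBot.bot_lt_coe n
  · intro k
    rw [hγp, Finset.sum_mul]
    have h1 : ∀ j, aeval t (p j) * u j * u k = ∑ l, aeval t (p j * q j k l) * u l := by
      intro j
      rw [mul_assoc, hq j k, Finset.mul_sum]
      refine Finset.sum_congr rfl fun l _ => ?_
      rw [map_mul, mul_assoc]
    rw [Finset.sum_congr rfl fun j _ => h1 j, Finset.sum_comm]
    refine Finset.sum_congr rfl fun l _ => ?_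
    rw [← Finset.sum_mul, ← map_sum]

theorem span_bound {m n : ℕ} {t γ : A} {u : Fin m → A} (hn : 0 < n)
    (span : ∀ x, ∃ p : Fin m → K[X], x = ∑ j, aeval t (p j) * u j)
    (Γ : Matrix (Fin m) (Fin m) K[X]) (hΓdeg : ∀ k l, (Γ k l).degree < n)
    (hΓ : ∀ k, γ * u k = ∑ l, aeval t (Γ k l) * u l) (N : ℕ) (ψ : A →ₐ[K] k)
    (hψ : ψ t ^ n = N * ψ γ) :
    ∃ s : Finset k, s.card ≤ m * n * m ∧ ∀ a, ψ a ∈ Submodule.span K (s : Set k) := by
  classical
  have hroot : aeval (ψ t) (Dpoly Γ n (N : K)) = 0 := by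
    have h1 : aeval (ψ t) (Dpoly Γ n (N : K)) = (Dpoly Γ n (N : k)).eval (ψ t) := by
      have := Dpoly_map Γ n (N : K) (Algebra.ofId K k)
      rw [map_natCast] at this
      rw [← this, eval_map]
      rfl
    rw [h1]
    refine eq_zero_of_mul span ψ _ fun l => ?_
    exact Dpoly_root Γ (N : k) (ψ t) (ψ γ) (fun l => ψ (u l)) (rel_map hΓ ψ) hψ l
  have hDm := Dpoly_monic Γ n hΓdeg (N : K)
  refine ⟨Finset.univ.image fun q : Fin (m * n) × Fin m => ψ t ^ (q.1 : ℕ) * ψ (u q.2), ?_, ?_⟩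
  · refine Finset.card_image_le.trans ?_
    simp
  · intro a
    obtain ⟨pa, hpa⟩ := span a
    rw [hpa, map_sum]
    refine Submodule.sum_mem _ fun l _ => ?_
    rw [map_mul, ← aeval_algHom_apply]
    have h1 : aeval (ψ t) (pa l) = aeval (ψ t) (pa l %ₘ Dpoly Γ n (N : K)) := by
      conv_lhs => rw [← modByMonic_add_div (pa l) (Dpoly Γ n (N : K))]
      rw [map_add, map_mul, hroot, zero_mul, add_zero]
    have h2 : (pa l %ₘ Dpoly Γ n (N : K)).degree < (m * n : ℕ) := by
      have := degree_modByMonic_lt (pa l) hDm.1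
      rwa [degree_eq_natDegree hDm.1.ne_zero, hDm.2] at this
    rw [h1, aeval_eq_sum_range' (n := m * n), Finset.sum_mul]
    · refine Submodule.sum_mem _ fun i hi => ?_
      rw [smul_mul_assoc]
      refine Submodule.smul_mem _ _ (Submodule.subset_span ?_)
      rw [Finset.coe_image]
      exact ⟨(⟨i, Finset.mem_range.1 hi⟩, l), by simp, rfl⟩
    · by_cases h0 : pa l %ₘ Dpoly Γ n (N : K) = 0
      · rw [h0, natDegree_zero]
        exact Nat.mul_pos l.pos hn
      · exact (natDegree_lt_iff_degree_lt h0).2 h2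

theorem curve_points [CharZero K] (hK : Den K) {m c : ℕ} (t : A) (u : Fin m → A)
    (span : ∀ x, ∃ p : Fin m → K[X], x = ∑ j, aeval t (p j) * u j)
    (mul : ∀ j k, ∃ p : Fin m → K[X], u j * u k = ∑ l, aeval t (p l) * u l ∧
      ∀ l, (p l).natDegree ≤ c)
    (inj : ∀ p : K[X], aeval t p = 0 → p = 0)
    (P : A →ₐ[K] K) (hPt : P t = 0) {n₀ : ℕ} (x : Fin n₀ → A)
    (hx : ∀ i, IsIntegral ℤ (P (x i))) (g : A) (hg : g ≠ 0) :
    ∃ ψ : A →ₐ[K] k, (∀ i, IsIntegral ℤ (ψ (x i))) ∧ ψ g ≠ 0 ∧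
      ∃ s : Finset k, s.card ≤ m * (m * c + 1) * m ∧
        ∀ a, ψ a ∈ Submodule.span K (s : Set k) := by
  classical
  set n := m * c + 1 with hn
  have ht : t ≠ 0 := by
    intro h
    have := inj X (by rw [aeval_X, h])
    exact X_ne_zero this
  -- the multiplier
  have hv : ∀ i, ∃ v M, P v ≠ 0 ∧ t ∣ v * (x i - algebraMap K A (P (x i))) ^ M :=
    fun i => exists_v t u span P _ (by simp)
  choose v M hPv htv using hv
  obtain ⟨γ, hγ0, ⟨p, hγp, hpdeg⟩, hγd⟩ := exists_gamma c t u span ht P hPt (∏ i, v i)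
    (by rw [map_prod]; exact Finset.prod_ne_zero_iff.2 fun i _ => hPv i)
  rw [← hn] at hγd hpdeg
  have hM0 : ∀ i, 0 < M i := by
    intro i
    rcases Nat.eq_zero_or_pos (M i) with h | h
    · exfalso
      have h1 := htv i
      rw [h, pow_zero, mul_one] at h1
      obtain ⟨w, hw⟩ := h1
      apply hPv i
      rw [hw, map_mul, hPt, zero_mul]
    · exact h
  have hdiv : ∀ i, t ^ n ∣ γ * (x i - algebraMap K A (P (x i))) ^ (M i * n) := fun i =>
    hγd _ (M i) (by
      rw [← Finset.mul_prod_erase _ _ (Finset.mem_univ i), mul_right_comm]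
      exact Dvd.dvd.mul_right (htv i) _)
  choose c' hc' using hdiv
  obtain ⟨Γ, hΓdeg, hΓ⟩ := gamma_matrix p hγp hpdeg mul
  let F := FractionRing A
  let fF : A →ₐ[K] F := IsScalarTower.toAlgHom K A F
  have hfF : Function.Injective fF := IsFractionRing.injective A F
  have hγF : fF γ ≠ 0 := fun h => hγ0 (hfF (by rw [h, map_zero]))
  obtain ⟨s, hsγ⟩ : ∃ s : F, fF t ^ n = s * fF γ :=
    ⟨fF t ^ n / fF γ, by rw [div_mul_cancel₀ _ hγF]⟩
  have htF := int_t span Γ hΓdeg hΓ fF s hsγ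
  obtain ⟨r, hr0, b, hbm, hψ⟩ := exists_psi (k := k) fF hfF s (int_a span fF s htF)
    (inj_s inj fF hfF s htF) g hg c'
  -- the denominators
  obtain ⟨N₀, hN₀, hN₀d⟩ := hK.finset (Finset.univ.biUnion fun i =>
    (b i).support.biUnion fun a => ((b i).coeff a).support.image ((b i).coeff a).coeff)
  have hden : ∀ N : ℕ, N₀ ∣ N → ∀ i a l, IsIntegral ℤ ((N : K) * ((b i).coeff a).coeff l) := by
    intro N hN i a l
    by_cases h1 : ((b i).coeff a).coeff l = 0
    · rw [h1, mul_zero]; exact isIntegral_zero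
    · apply hN₀d _ _ N hN
      simp only [Finset.mem_biUnion, Finset.mem_univ, true_and, Finset.mem_image]
      refine ⟨i, a, ?_, l, ?_, rfl⟩
      · rw [mem_support_iff]
        intro h2
        rw [h2, coeff_zero] at h1
        exact h1 rfl
      · rw [mem_support_iff]; exact h1
  -- the choice of `N`
  obtain ⟨N, hNd, hNr⟩ : ∃ N : ℕ, N₀ ∣ N ∧ r.eval (N : K) ≠ 0 := by
    have hf : Function.Injective fun a : ℕ => ((N₀ * (a + 1) : ℕ) : K) := by
      intro a a' h
      have h1 : N₀ * (a + 1) = N₀ * (a' + 1) := Nat.cast_injective (R := K) h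
      have := Nat.eq_of_mul_eq_mul_left (Nat.pos_of_ne_zero hN₀) h1
      omega
    obtain ⟨y, ⟨a, rfl⟩, hy⟩ := (Set.infinite_range_of_injective hf).exists_notMem_finset
      r.roots.toFinset
    refine ⟨N₀ * (a + 1), dvd_mul_right _ _, ?_⟩
    intro h
    apply hy
    rw [Multiset.mem_toFinset, mem_roots hr0]
    exact h
  obtain ⟨ψ, hψg, hψc, hψs⟩ := hψ N hNr
  refine ⟨ψ, ?_, hψg, ?_⟩
  · intro i
    have h1 : IsIntegral ℤ ((N : k) * ψ (c' i)) :=
      integral_of_eq (hbm i) N (hden N hNd i) _ (hψc i)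
    have h2 : ψ (x i - algebraMap K A (P (x i))) ^ (M i * n) = (N : k) * ψ (c' i) := by
      rw [← map_pow]
      apply hψs
      have h1 := congrArg fF (hc' i)
      rw [map_mul, map_mul, map_pow fF t, hsγ] at h1
      apply mul_left_cancel₀ hγF
      rw [h1]
      ring
    have h3 : IsIntegral ℤ (ψ (x i - algebraMap K A (P (x i)))) := by
      refine IsIntegral.of_pow (n := M i * n) (Nat.mul_pos (hM0 i) (by omega)) ?_
      rw [h2]
      exact h1
    have h4 : ψ (x i) = ψ (x i - algebraMap K A (P (x i))) + algebraMap K k (P (x i)) := by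
      rw [map_sub, AlgHom.commutes, sub_add_cancel]
    rw [h4]
    exact h3.add ((hx i).map (algebraMap K k).toIntAlgHom)
  · refine span_bound (by omega) span Γ hΓdeg hΓ N ψ ?_
    rw [← map_pow]
    exact hψs _ _ (by rw [map_pow]; exact hsγ)

end Vale.Agent.P002.H85
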