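import Vale.Agent.P002.H85.Gamma

/-!
# The equation of `t` over `K[s]`
-/

namespace Vale.Agent.P002.H85

open Polynomial

variable {K : Type*} [Field K]

/-- `det (X ^ n - σ Γ)`. -/
noncomputable def Dpoly {R : Type*} [CommRing R] [Algebra K R] {m : ℕ}
    (Γ : Matrix (Fin m) (Fin m) K[X]) (n : ℕ) (σ : R) : R[X] :=
  ((X : R[X]) ^ n • (1 : Matrix (Fin m) (Fin m) R[X]) -
    Γ.map (fun p => C σ * p.map (algebraMap K R))).det

theorem Dpoly_monic {R : Type*} [CommRing R] [Nontrivial R] [Algebra K R] {m : ℕ}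
    (Γ : Matrix (Fin m) (Fin m) K[X]) (n : ℕ) (hΓ : ∀ k l, (Γ k l).degree < n) (σ : R) :
    (Dpoly Γ n σ).Monic ∧ (Dpoly Γ n σ).natDegree = m * n := by
  refine det_monic n _ fun i j => ?_
  rw [Matrix.map_apply]
  refine lt_of_le_of_lt ?_ (hΓ i j)
  refine (degree_mul_le _ _).trans ?_
  refine (add_le_add degree_C_le degree_map_le).trans ?_
  rw [zero_add]

theorem Dpoly_map {R R' : Type*} [CommRing R] [Algebra K R] [CommRing R'] [Algebra K R'] {m : ℕ}
    (Γ : Matrix (Fin m) (Fin m) K[X]) (n : ℕ) (σ : R) (f : R →ₐ[K] R') :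
    (Dpoly Γ n σ).map (f : R →+* R') = Dpoly Γ n (f σ) := by
  unfold Dpoly
  rw [← coe_mapRingHom, RingHom.map_det]
  congr 1
  ext i j : 2
  simp only [RingHom.mapMatrix_apply, Matrix.map_apply, Matrix.sub_apply, Matrix.smul_apply,
    smul_eq_mul, coe_mapRingHom, Polynomial.map_sub, Polynomial.map_mul, Polynomial.map_pow,
    Polynomial.map_X, Polynomial.map_C, Polynomial.map_map, RingHom.coe_coe, Matrix.one_apply]
  have h1 : ((f : R →+* R')).comp (algebraMap K R) = algebraMap K R' := by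
    ext x; simp
  rw [h1]
  split_ifs <;> simp

theorem Dpoly_root {R : Type*} [CommRing R] [Algebra K R] {m n : ℕ}
    (Γ : Matrix (Fin m) (Fin m) K[X]) (σ τ γ : R) (u : Fin m → R)
    (h : ∀ k, γ * u k = ∑ l, aeval τ (Γ k l) * u l) (hτ : τ ^ n = σ * γ) (l : Fin m) :
    (Dpoly Γ n σ).eval τ * u l = 0 := by
  set M : Matrix (Fin m) (Fin m) R :=
    τ ^ n • (1 : Matrix (Fin m) (Fin m) R) - Γ.map (fun p => σ * aeval τ p) with hM
  have h1 : (Dpoly Γ n σ).eval τ = M.det := by
    unfold Dpoly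
    rw [← coe_evalRingHom, RingHom.map_det]
    congr 1
    ext i j
    simp only [RingHom.mapMatrix_apply, Matrix.map_apply, Matrix.sub_apply, Matrix.smul_apply,
      smul_eq_mul, coe_evalRingHom, eval_sub, eval_mul, eval_pow, eval_X, eval_C, hM,
      Matrix.one_apply, eval_map_algebraMap]
    split_ifs <;> simp
  have h2 : M.mulVec u = 0 := by
    ext k
    rw [hM, Matrix.sub_mulVec, Matrix.smul_mulVec, Matrix.one_mulVec]
    simp only [Pi.sub_apply, Pi.smul_apply, smul_eq_mul, Pi.zero_apply, Matrix.mulVec,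
      dotProduct, Matrix.map_apply]
    rw [hτ, mul_assoc, h k, Finset.mul_sum, sub_eq_zero]
    exact Finset.sum_congr rfl fun l _ => by ring
  have h3 : (M.det • u) = 0 := by
    have := congrArg (fun w => M.adjugate.mulVec w) h2
    simp only [Matrix.mulVec_mulVec, Matrix.adjugate_mul, Matrix.smul_mulVec, Matrix.one_mulVec,
      Matrix.mulVec_zero] at this
    exact this
  rw [h1]
  exact congrFun h3 l

end Vale.Agent.P002.H85
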