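import Mathlib

/-!
# The determinant of `X ^ n - B`, `deg B < n`, is monic
-/

namespace Vale.Agent.P002.H85

open Polynomial

theorem det_monic {R : Type*} [CommRing R] [Nontrivial R] {m : ℕ} (n : ℕ)
    (B : Matrix (Fin m) (Fin m) R[X]) (hB : ∀ i j, (B i j).degree < n) :
    ((X : R[X]) ^ n • (1 : Matrix (Fin m) (Fin m) R[X]) - B).det.Monic ∧
    ((X : R[X]) ^ n • (1 : Matrix (Fin m) (Fin m) R[X]) - B).det.natDegree = m * n := by
  set M := (X : R[X]) ^ n • (1 : Matrix (Fin m) (Fin m) R[X]) - B with hM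
  have hdeg : ∀ i j, (M i j).natDegree ≤ n := by
    intro i j
    rw [hM, Matrix.sub_apply, Matrix.smul_apply, Matrix.one_apply]
    refine (natDegree_sub_le _ _).trans (max_le ?_ ?_)
    · split_ifs
      · simp
      · simp
    · exact natDegree_le_of_degree_le (hB i j).le
  have hc : ∀ i j, (M i j).coeff n = (1 : Matrix (Fin m) (Fin m) R) i j := by
    intro i j
    rw [hM, Matrix.sub_apply, Matrix.smul_apply, Matrix.one_apply, Matrix.one_apply, coeff_sub,
      coeff_eq_zero_of_degree_lt (hB i j)]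
    split_ifs
    · simp
    · simp
  have hle : M.det.natDegree ≤ m * n := by
    rw [Matrix.det_apply']
    refine natDegree_sum_le_of_forall_le _ _ fun σ _ => ?_
    refine (natDegree_mul_le).trans ?_
    have h1 : ((((Equiv.Perm.sign σ : ℤˣ) : ℤ) : R[X])).natDegree = 0 := by
      rw [← map_intCast (C : R →+* R[X]), natDegree_C]
    rw [h1, zero_add]
    refine (natDegree_prod_le _ _).trans ?_
    refine (Finset.sum_le_sum fun i _ => hdeg (σ i) i).trans ?_
    simp
  have hco : M.det.coeff (m * n) = 1 := by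
    rw [Matrix.det_apply', finsetSum_coeff]
    have : ∀ σ : Equiv.Perm (Fin m),
        ((((Equiv.Perm.sign σ : ℤˣ) : ℤ) : R[X]) * ∏ i, M (σ i) i).coeff (m * n) =
        (((Equiv.Perm.sign σ : ℤˣ) : ℤ) : R) * ∏ i, (1 : Matrix (Fin m) (Fin m) R) (σ i) i := by
      intro σ
      rw [← map_intCast (C : R →+* R[X]), coeff_C_mul]
      congr 1
      have := coeff_prod_of_natDegree_le (Finset.univ : Finset (Fin m)) (fun i => M (σ i) i) n
        (fun i _ => hdeg (σ i) i)
      rw [Finset.card_univ, Fintype.card_fin] at this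
      rw [this]
      exact Finset.prod_congr rfl fun i _ => hc _ _
    rw [Finset.sum_congr rfl fun σ _ => this σ, ← Matrix.det_apply', Matrix.det_one]
  have hmon : M.det.Monic := monic_of_natDegree_le_of_coeff_eq_one _ hle hco
  exact ⟨hmon, le_antisymm hle (le_natDegree_of_ne_zero (by rw [hco]; exact one_ne_zero))⟩

end Vale.Agent.P002.H85
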