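import Vale.Agent.P002.H85.DPoly

/-!
# Extension of homomorphisms to integral extensions; elements with few zeros
-/

namespace Vale.Agent.P002.H85

open Polynomial

theorem exists_hom_of_integral {K k S O : Type*} [Field K] [Field k] [IsAlgClosed k] [Algebra K k]
    [CommRing S] [CommRing O] [Algebra K S] [Algebra K O] [Algebra S O] [IsScalarTower K S O]
    [Algebra.IsIntegral S O] (hinj : Function.Injective (algebraMap S O)) (φ : S →ₐ[K] K) :
    ∃ ψ : O →ₐ[K] k, ∀ x : S, ψ (algebraMap S O x) = algebraMap K k (φ x) := by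
  have hmax : (RingHom.ker φ).IsMaximal := RingHom.ker_isMaximal_of_surjective φ
    (fun x => ⟨algebraMap K S x, by simp⟩)
  obtain ⟨Q, hQ, hQc⟩ := Ideal.exists_ideal_over_maximal_of_isIntegral (S := O) (RingHom.ker φ)
    (by rw [(RingHom.injective_iff_ker_eq_bot _).1 hinj]; exact bot_le)
  have hQp : Q.IsPrime := hQ.isPrime
  have hcong : ∀ x : S, Ideal.Quotient.mk Q (algebraMap S O x) =
      algebraMap K (O ⧸ Q) (φ x) := by
    intro x
    have h1 : x - algebraMap K S (φ x) ∈ Q.comap (algebraMap S O) := by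
      rw [hQc, RingHom.mem_ker, map_sub]
      simp
    rw [Ideal.mem_comap, map_sub, ← IsScalarTower.algebraMap_apply] at h1
    have h2 := (Ideal.Quotient.mk_eq_mk_iff_sub_mem _ _).2 h1
    rw [h2]
    rfl
  have hint : Algebra.IsIntegral K (O ⧸ Q) := by
    constructor
    intro y
    obtain ⟨x, rfl⟩ := Ideal.Quotient.mk_surjective y
    obtain ⟨p, hp, hpx⟩ := Algebra.IsIntegral.isIntegral (R := S) x
    refine ⟨p.map (φ : S →+* K), hp.map _, ?_⟩
    rw [eval₂_map]
    have h3 : (algebraMap K (O ⧸ Q)).comp (φ : S →+* K) =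
        (Ideal.Quotient.mk Q).comp (algebraMap S O) := by
      ext z
      exact (hcong z).symm
    rw [h3, ← hom_eval₂, hpx, map_zero]
  have : Algebra.IsAlgebraic K (O ⧸ Q) := inferInstance
  let ψ₀ : (O ⧸ Q) →ₐ[K] k := IsAlgClosed.lift
  refine ⟨ψ₀.comp (Ideal.Quotient.mkₐ K Q), fun x => ?_⟩
  rw [AlgHom.comp_apply]
  have h4 : (Ideal.Quotient.mkₐ K Q) (algebraMap S O x) =
      Ideal.Quotient.mk Q (algebraMap S O x) := rfl
  rw [h4, hcong x, AlgHom.commutes]

variable {K A : Type*} [Field K] [CommRing A] [Algebra K A]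

theorem aeval_integral {m : ℕ} (t : A) (u : Fin m → A)
    (span : ∀ x, ∃ p : Fin m → K[X], x = ∑ j, aeval t (p j) * u j) (y : A) :
    ∃ p : K[X][X], p.Monic ∧ p.eval₂ (aeval t : K[X] →ₐ[K] A).toRingHom y = 0 := by
  classical
  let _ : Algebra K[X] A := (aeval t : K[X] →ₐ[K] A).toRingHom.toAlgebra
  have hsm : ∀ (p : K[X]) (a : A), p • a = aeval t p * a := fun p a => rfl
  have hfin : Module.Finite K[X] A := by
    refine ⟨⟨Finset.univ.image u, ?_⟩⟩
    rw [eq_top_iff]
    rintro x -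
    obtain ⟨p, hp⟩ := span x
    rw [hp]
    refine Submodule.sum_mem _ fun j _ => ?_
    rw [← hsm]
    exact Submodule.smul_mem _ _ (Submodule.subset_span (by simp))
  obtain ⟨p, hp, hpy⟩ := Algebra.IsIntegral.isIntegral (R := K[X]) y
  exact ⟨p, hp, hpy⟩

theorem exists_v {m : ℕ} (t : A) (u : Fin m → A)
    (span : ∀ x, ∃ p : Fin m → K[X], x = ∑ j, aeval t (p j) * u j)
    (P : A →ₐ[K] K) (y : A) (hy : P y = 0) :
    ∃ v M, P v ≠ 0 ∧ t ∣ v * y ^ M := by
  obtain ⟨p, hp, hpy⟩ := aeval_integral t u span y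
  have hmon : (p.map (evalRingHom (0 : K))).Monic := hp.map _
  obtain ⟨g, hg, hgd⟩ := exists_eq_pow_rootMultiplicity_mul_and_not_dvd
    (p.map (evalRingHom (0 : K))) hmon.ne_zero 0
  rw [C_0, sub_zero] at hg hgd
  set M := rootMultiplicity 0 (p.map (evalRingHom (0 : K))) with hM
  have hcong : ∀ q : K[X], t ∣ aeval t q - algebraMap K A (q.eval 0) := by
    intro q
    have h1 : X ∣ q - C (q.eval 0) := by
      rw [X_dvd_iff, coeff_sub, coeff_C_zero, coeff_zero_eq_eval_zero, sub_self]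
    obtain ⟨r, hr⟩ := h1
    refine ⟨aeval t r, ?_⟩
    have := congrArg (aeval t) hr
    rwa [map_sub, aeval_C, map_mul, aeval_X] at this
  have h2 : t ∣ p.eval₂ (aeval t : K[X] →ₐ[K] A).toRingHom y -
      aeval y (p.map (evalRingHom (0 : K))) := by
    rw [aeval_def, eval₂_map, eval₂_eq_sum_range, eval₂_eq_sum_range, ← Finset.sum_sub_distrib]
    refine Finset.dvd_sum fun i _ => ?_
    rw [← sub_mul]
    exact Dvd.dvd.mul_right (hcong _) _
  rw [hpy, zero_sub, dvd_neg, hg, map_mul, map_pow, aeval_X, mul_comm] at h2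
  refine ⟨aeval y g, M, ?_, h2⟩
  rw [← aeval_algHom_apply, hy]
  intro h
  apply hgd
  rw [X_dvd_iff, coeff_zero_eq_aeval_zero]
  exact h

end Vale.Agent.P002.H85
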