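import Vale.Agent.P002.H85.Comp

/-!
# The theorem on components with one integral point
-/

namespace Vale.Agent.P002.H85

open Matrix Vale.Agent.P002R.Orb Vale.Agent.P002.H326J Vale.Agent.P002.H252 NumberField

variable {ι : Type} {r : ℕ}

theorem lift_conj (g : SpecialLinearGroup (Fin r) ℂ) (X : ι → SpecialLinearGroup (Fin r) ℂ)
    (x : FreeGroup ι) :
    FreeGroup.lift (fun p => g * X p * g⁻¹) x = g * FreeGroup.lift X x * g⁻¹ := by
  have h2 : FreeGroup.lift (fun p => g * X p * g⁻¹) =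
      (MulAut.conj g).toMonoidHom.comp (FreeGroup.lift X) := by
    apply FreeGroup.ext_hom
    intro p
    rw [FreeGroup.lift_apply_of, MonoidHom.comp_apply, FreeGroup.lift_apply_of]
    rfl
  rw [h2]
  rfl

theorem ss_conj (g : SpecialLinearGroup (Fin r) ℂ) {X : ι → SpecialLinearGroup (Fin r) ℂ}
    (h : ∀ W, IsInv X W → ∃ W', IsInv X W' ∧ IsCompl W W') :
    ∀ W, IsInv (fun p => g * X p * g⁻¹) W →
      ∃ W', IsInv (fun p => g * X p * g⁻¹) W' ∧ IsCompl W W' := by
  have h1 : g.1 * (g⁻¹).1 = 1 := congrArg Subtype.val (mul_inv_cancel g)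
  have h2 : (g⁻¹).1 * g.1 = 1 := congrArg Subtype.val (inv_mul_cancel g)
  let e : (Fin r → ℂ) ≃ₗ[ℂ] (Fin r → ℂ) := LinearEquiv.ofLinearMap (Matrix.toLin' g.1)
    (Matrix.toLin' (g⁻¹).1) (by rw [← Matrix.toLin'_mul, h1, Matrix.toLin'_one])
    (by rw [← Matrix.toLin'_mul, h2, Matrix.toLin'_one])
  have he : ∀ v, e v = g.1 *ᵥ v := fun v => Matrix.toLin'_apply _ _
  have hes : ∀ v, e.symm v = (g⁻¹).1 *ᵥ v := fun v => Matrix.toLin'_apply _ _
  have hg : ∀ p v, (g * X p * g⁻¹).1 *ᵥ v = e ((X p).1 *ᵥ e.symm v) := by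
    intro p v
    rw [he, hes]
    have h3 : (g * X p * g⁻¹).1 = g.1 * (X p).1 * (g⁻¹).1 := rfl
    rw [h3, Matrix.mulVec_mulVec, Matrix.mulVec_mulVec, Matrix.mul_assoc]
  intro W hW
  obtain ⟨W', hW', hc⟩ := h (W.map e.symm.toLinearMap) (by
    rintro p _ ⟨v, hv, rfl⟩
    refine ⟨_, hW p v hv, ?_⟩
    change e.symm ((g * X p * g⁻¹).1 *ᵥ v) = (X p).1 *ᵥ e.symm v
    rw [hg, LinearEquiv.symm_apply_apply])
  refine ⟨W'.map e.toLinearMap, ?_, ?_⟩
  · rintro p _ ⟨v, hv, rfl⟩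
    refine ⟨_, hW' p v hv, ?_⟩
    change e ((X p).1 *ᵥ v) = (g * X p * g⁻¹).1 *ᵥ e v
    rw [hg, LinearEquiv.symm_apply_apply]
  · have h3 := (Submodule.orderIsoMapComap e).isCompl_iff.1 hc
    have h4 : (Submodule.orderIsoMapComap e) (W.map e.symm.toLinearMap) = W := by
      change (W.map e.symm.toLinearMap).map e.toLinearMap = W
      rw [← Submodule.map_comp]
      have h5 : e.toLinearMap ∘ₗ e.symm.toLinearMap = LinearMap.id := by
        ext v
        simp
      rw [h5, Submodule.map_id]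
    rw [h4] at h3
    exact h3

theorem YW_conj {R : Set (FreeGroup ι)} {s : ℕ} {w : Fin s → FreeGroup ι}
    {C : Fin s → SpecialLinearGroup (Fin r) ℂ} (U : (Matrix (Fin r) (Fin r) ℂ)ˣ)
    {X : ι → SpecialLinearGroup (Fin r) ℂ} (hX : X ∈ YW R w C) : conjX U X ∈ YW R w C := by
  obtain ⟨g, hg⟩ := exists_sl_scale (U⁻¹).1 U.1 (by rw [← Units.val_mul, inv_mul_cancel,
    Units.val_one])
  have h1 : conjX U X = fun p => g * X p * g⁻¹ := by
    funext p
    apply Subtype.ext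
    rw [hg]
    rfl
  rw [h1]
  refine ⟨⟨fun x hx => ?_, ss_conj g hX.1.2⟩, fun k => ?_⟩
  · rw [lift_conj, hX.1.1 x hx, mul_one, mul_inv_cancel]
  · rw [lift_conj]
    exact (hX.2 k).trans (isConj_iff.2 ⟨g, rfl⟩)

section main

variable [Finite ι] {R : Set (FreeGroup ι)} {s : ℕ} {w : Fin s → FreeGroup ι}
  {C : Fin s → SpecialLinearGroup (Fin r) ℂ}

/-- a component whose closure contains an integral point -/
theorem comp_main (hsep : SepProp ι r) (hC : ∀ j z, IsEigenvalue (C j) z → IsIntegral ℚ z)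
    {I : Ideal (MvPolynomial (ι × Fin r × Fin r) ℂ)} (hI : IsComponent (YW R w C) I)
    {X₀ : ι → SpecialLinearGroup (Fin r) ℂ}
    (hX₀ : X₀ ∈ closureIn R (YNone R r) (part (YW R w C) I))
    (hint : ∀ x, IsIntegral ℤ (FreeGroup.lift X₀ x).1.trace) :
    ∃ D, IsDenseRepDeg D (part (YW R w C) I) := by
  have hT : ∀ U, ∀ X ∈ YW R w C, conjX U X ∈ YW R w C := fun U X hX => YW_conj U hX
  obtain ⟨g, hg⟩ := bass X₀ hX₀.1.2 hint
  have h1 := isZero_sl hT hI (isZero_of_closure hsep hT hI hX₀) g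
  obtain ⟨D, hD⟩ := comp_dense hC hI (fun p => g * X₀ p * g⁻¹) h1 hg
  refine ⟨D, fun F hF X hX => ?_⟩
  by_contra hne
  obtain ⟨X', hX', hX'F, hX'int, L, hL, hLD, hLX'⟩ := hD F ⟨X, hX, hne⟩
  refine hX'F (hF X' hX' L hL hLD fun p i j => ?_)
  rw [← Vale.Agent.P002.H306.mem_OI_iff]
  exact ⟨hLX' p i j, hX'int p i j⟩

omit [Finite ι] in
theorem IsDenseRepDeg.isDenseDeg {D : ℕ} {T : Set (ι → SpecialLinearGroup (Fin r) ℂ)}
    (h : IsDenseRepDeg D T) : IsDenseDeg R D T := fun F _ hF =>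
  h F fun X hX L hL hLD hLX => hF X hX L hL hLD (intPoint_of_intRep hLX)

omit [Finite ι] in
theorem IsDenseRepDeg.mono {D D' : ℕ} (hDD : D ≤ D')
    {T : Set (ι → SpecialLinearGroup (Fin r) ℂ)} (h : IsDenseRepDeg D T) : IsDenseRepDeg D' T :=
  fun F hF => h F fun X hX L hL hLD => hF X hX L hL (hLD.trans hDD)

/-- the components whose closures contain integral points -/
def Good (R : Set (FreeGroup ι)) (T V : Set (ι → SpecialLinearGroup (Fin r) ℂ)) : Prop :=
  IsIrrComp R T V ∧ (intPoints R (closureIn R (YNone R r) V)).Nonempty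

theorem good_dense (hsep : SepProp ι r) (hC : ∀ j z, IsEigenvalue (C j) z → IsIntegral ℚ z)
    {V : Set (ι → SpecialLinearGroup (Fin r) ℂ)} (hV : Good R (YW R w C) V) :
    ∃ D, IsDenseRepDeg D V := by
  have hT : ∀ U, ∀ X ∈ YW R w C, conjX U X ∈ YW R w C := fun U X hX => YW_conj U hX
  obtain ⟨h1, X₀, hX₀, L, hL, hLX⟩ := hV
  obtain ⟨I, hI, rfl⟩ := (irrComp_iff hsep hT (fun X hX => hX.1) V).1 h1
  exact comp_main hsep hC hI hX₀ ((integral_iff hX₀.1).2 ⟨L, hL, hLX⟩)

/-- a uniform bound -/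
theorem exists_bound (hsep : SepProp ι r) (hC : ∀ j z, IsEigenvalue (C j) z → IsIntegral ℚ z) :
    ∃ D, ∀ V, Good R (YW R w C) V → IsDenseRepDeg D V := by
  classical
  have hT : ∀ U, ∀ X ∈ YW R w C, conjX U X ∈ YW R w C := fun U X hX => YW_conj U hX
  have hfin : (vanIdeal (YW R w C)).minimalPrimes.Finite :=
    Ideal.finite_minimalPrimes_of_isNoetherianRing _ _
  have h1 : ∀ I : Ideal (MvPolynomial (ι × Fin r × Fin r) ℂ), ∃ D,
      Good R (YW R w C) (part (YW R w C) I) → IsDenseRepDeg D (part (YW R w C) I) := by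
    intro I
    by_cases h : Good R (YW R w C) (part (YW R w C) I)
    · obtain ⟨D, hD⟩ := good_dense hsep hC h
      exact ⟨D, fun _ => hD⟩
    · exact ⟨0, fun h' => absurd h' h⟩
  choose D hD using h1
  refine ⟨hfin.toFinset.sup D, fun V hV => ?_⟩
  obtain ⟨I, hI, rfl⟩ := (irrComp_iff hsep hT (fun X hX => hX.1) V).1 hV.1
  exact (hD I hV).mono (Finset.le_sup (f := D) ((Set.Finite.mem_toFinset _).2 hI))

theorem reps_subset (D : ℕ) (T : Set (ι → SpecialLinearGroup (Fin r) ℂ)) :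
    repsDeg D T ⊆ intPoints R T := by
  rintro X ⟨hX, L, hL, -, hLX⟩
  exact ⟨hX, L, hL, intPoint_of_intRep hLX⟩

theorem closure_eq (hsep : SepProp ι r) (hC : ∀ j z, IsEigenvalue (C j) z → IsIntegral ℚ z) :
    ∃ D, closureIn R (YW R w C) (intPoints R (YW R w C)) =
        closureIn R (YW R w C) (repsDeg D (YW R w C)) ∧
      closureIn R (YW R w C) (intPoints R (YW R w C)) = ⋃₀ {V | Good R (YW R w C) V} := by
  classical
  have hT : ∀ U, ∀ X ∈ YW R w C, conjX U X ∈ YW R w C := fun U X hX => YW_conj U hX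
  have hTR : YW R w C ⊆ YNone R r := fun X hX => hX.1
  have hfin : (vanIdeal (YW R w C)).minimalPrimes.Finite :=
    Ideal.finite_minimalPrimes_of_isNoetherianRing _ _
  obtain ⟨D, hD⟩ := exists_bound (R := R) (w := w) (C := C) hsep hC
  have ha : ⋃₀ {V | Good R (YW R w C) V} ⊆ closureIn R (YW R w C) (repsDeg D (YW R w C)) := by
    rintro X ⟨V, hV, hXV⟩
    have hVT : V ⊆ YW R w C := by rw [← hV.1.1]; exact closureIn_subset R _ V
    refine ⟨hVT hXV, fun F _ hF' => ?_⟩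
    exact hD V hV F (fun X' hX' L hL hLD hLX => hF' X' ⟨hVT hX', L, hL, hLD, hLX⟩) X hXV
  have hb : closureIn R (YW R w C) (repsDeg D (YW R w C)) ⊆
      closureIn R (YW R w C) (intPoints R (YW R w C)) := closureIn_mono R (reps_subset D _)
  have hc : closureIn R (YW R w C) (intPoints R (YW R w C)) ⊆ ⋃₀ {V | Good R (YW R w C) V} := by
    intro X hX
    by_contra hcon
    have h1 : ∀ I : Ideal (MvPolynomial (ι × Fin r × Fin r) ℂ), IsComponent (YW R w C) I →
        Good R (YW R w C) (part (YW R w C) I) →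
        ∃ F : MvPolynomial (ι × Fin r × Fin r) ℂ, IsInvariant R F ∧
          (∀ X' ∈ part (YW R w C) I, value F X' = 0) ∧ value F X ≠ 0 := by
      intro I hI hG
      have h2 : X ∉ part (YW R w C) I := fun h => hcon ⟨_, hG, h⟩
      rw [← closed_part (R := R) hsep hT hTR hI] at h2
      have h3 : ¬ ∀ F : MvPolynomial (ι × Fin r × Fin r) ℂ, IsInvariant R F →
        (∀ X' ∈ part (YW R w C) I, value F X' = 0) → value F X = 0 := fun h => h2 ⟨hX.1, h⟩
      push Not at h3
      exact h3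
    choose! F hF hFI hFX using h1
    have h2 : value (∏ I ∈ hfin.toFinset.filter
        (fun I => Good R (YW R w C) (part (YW R w C) I)), F I) X = 0 := by
      refine hX.2 _ (inv_prod _ _ fun I hI => ?_) fun X' hX' => ?_
      · rw [Finset.mem_filter, Set.Finite.mem_toFinset] at hI
        exact hF I hI.1 hI.2
      · obtain ⟨I, hI, hIX⟩ := exists_part hX'.1
        have hG : Good R (YW R w C) (part (YW R w C) I) :=
          ⟨(irrComp_iff hsep hT hTR _).2 ⟨I, hI, rfl⟩, X',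
            subset_closureIn R (fun Z hZ => hTR hZ.1) hIX, hX'.2⟩
        rw [value_prod]
        refine Finset.prod_eq_zero (i := I) ?_ (hFI I hI hG X' hIX)
        rw [Finset.mem_filter, Set.Finite.mem_toFinset]
        exact ⟨hI, hG⟩
    rw [value_prod, Finset.prod_eq_zero_iff] at h2
    obtain ⟨I, hI, hI'⟩ := h2
    rw [Finset.mem_filter, Set.Finite.mem_toFinset] at hI
    exact hFX I hI.1 hI.2 hI'
  exact ⟨D, subset_antisymm (hc.trans ha) hb, subset_antisymm hc (ha.trans hb)⟩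

omit [Finite ι] in
theorem isDenseAll_iff {T : Set (ι → SpecialLinearGroup (Fin r) ℂ)} :
    IsDenseAll R T ↔ closureIn R T (intPoints R T) = T := by
  constructor
  · intro h
    refine subset_antisymm (closureIn_subset R _ _) fun X hX => ⟨hX, fun F hF hF' => ?_⟩
    exact h F hF (fun X' hX' L hL hLX => hF' X' ⟨hX', L, hL, hLX⟩) X hX
  · intro h F hF hF' X hX
    rw [← h] at hX
    exact hX.2 F hF fun X' hX' => by
      obtain ⟨h1, L, hL, hLX⟩ := hX'
      exact hF' X' h1 L hL hLX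

theorem all_good_iff (hsep : SepProp ι r) (hC : ∀ j z, IsEigenvalue (C j) z → IsIntegral ℚ z) :
    IsDenseAll R (YW R w C) ↔ ∀ V, IsIrrComp R (YW R w C) V → Good R (YW R w C) V := by
  classical
  have hT : ∀ U, ∀ X ∈ YW R w C, conjX U X ∈ YW R w C := fun U X hX => YW_conj U hX
  have hTR : YW R w C ⊆ YNone R r := fun X hX => hX.1
  have hfin : (vanIdeal (YW R w C)).minimalPrimes.Finite :=
    Ideal.finite_minimalPrimes_of_isNoetherianRing _ _
  obtain ⟨D, -, h2⟩ := closure_eq (R := R) (w := w) (C := C) hsep hC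
  rw [isDenseAll_iff, h2]
  constructor
  · intro h V hV
    have hVT : V ⊆ YW R w C := by rw [← hV.1]; exact closureIn_subset R _ V
    obtain ⟨I, hI, hVI⟩ := hV.2.1.exists_subset hVT (hfin.toFinset.filter
      (fun I => Good R (YW R w C) (part (YW R w C) I))) (fun I => part (YW R w C) I)
      (fun I hI => by
        rw [Finset.mem_filter, Set.Finite.mem_toFinset] at hI
        exact closed_part hsep hT hTR hI.1) (fun X hX => by
        have h3 : X ∈ ⋃₀ {V | Good R (YW R w C) V} := by rw [h]; exact hVT hX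
        obtain ⟨V', hV', hXV'⟩ := h3
        obtain ⟨I, hI, rfl⟩ := (irrComp_iff hsep hT hTR V').1 hV'.1
        refine ⟨I, ?_, hXV'⟩
        rw [Finset.mem_filter, Set.Finite.mem_toFinset]
        exact ⟨hI, hV'⟩)
    rw [Finset.mem_filter, Set.Finite.mem_toFinset] at hI
    have h4 := hV.2.2 _ hI.2.1.1 hI.2.1.2.1 hVI
    rw [← h4]
    exact hI.2
  · intro h
    refine subset_antisymm ?_ fun X hX => ?_
    · rintro X ⟨V, hV, hXV⟩
      rw [← hV.1.1] at hXV
      exact hXV.1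
    · obtain ⟨I, hI, hIX⟩ := exists_part hX
      exact ⟨_, h _ ((irrComp_iff hsep hT hTR _).2 ⟨I, hI, rfl⟩), hIX⟩

theorem bounded_iff (hsep : SepProp ι r) (hC : ∀ j z, IsEigenvalue (C j) z → IsIntegral ℚ z) :
    IsDenseAll R (YW R w C) ↔
      ∃ D, IsDenseDeg R D (YW R w C) ∧ IsDenseRepDeg D (YW R w C) := by
  have hT : ∀ U, ∀ X ∈ YW R w C, conjX U X ∈ YW R w C := fun U X hX => YW_conj U hX
  have hTR : YW R w C ⊆ YNone R r := fun X hX => hX.1
  constructor
  · intro h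
    obtain ⟨D, hD⟩ := exists_bound (R := R) (w := w) (C := C) hsep hC
    have h1 : IsDenseRepDeg D (YW R w C) := by
      intro F hF X hX
      obtain ⟨I, hI, hIX⟩ := exists_part hX
      have hG := (all_good_iff hsep hC).1 h _ ((irrComp_iff hsep hT hTR _).2 ⟨I, hI, rfl⟩)
      exact hD _ hG F (fun X' hX' => hF X' hX'.1) X hIX
    exact ⟨D, h1.isDenseDeg, h1⟩
  · rintro ⟨D, h, -⟩ F hF hF'
    exact h F hF fun X hX L hL _ hLX => hF' X hX L hL hLX

end main

end Vale.Agent.P002.H85
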