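import Vale.Agent.P002.H85.Final
import Vale.Agent.P002.H2N.Sep

/-!
# The theorem on components with one integral point: final form
-/

namespace Vale.Agent.P002.H85

open Matrix Vale.Agent.P002R.Orb Vale.Agent.P002.H326J Vale.Agent.P002.H252 NumberField

variable {ι : Type} {r : ℕ}

theorem sepProp [Finite ι] : SepProp ι r := fun R I hI X₀ hX₀ h =>
  Vale.Agent.P002.H2N.sep R I hI X₀ hX₀ h

theorem value_one' (X : ι → SpecialLinearGroup (Fin r) ℂ) :
    value (1 : MvPolynomial (ι × Fin r × Fin r) ℂ) X = 1 := MvPolynomial.eval₂_one ..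

/-- a nonempty set with dense integral representations contains one -/
theorem IsDenseRepDeg.nonempty {R : Set (FreeGroup ι)} {D : ℕ}
    {T : Set (ι → SpecialLinearGroup (Fin r) ℂ)} (h : IsDenseRepDeg D T) (hT : T.Nonempty) :
    (intPoints R T).Nonempty := by
  obtain ⟨X, hX⟩ := hT
  by_contra hcon
  have h1 := h 1 (fun X' hX' L hL _ hLX => absurd ⟨X', hX', L, hL, intPoint_of_intRep hLX⟩ hcon)
    X hX
  rw [value_one'] at h1
  exact one_ne_zero h1

section main

variable [Finite ι] {R : Set (FreeGroup ι)} {s : ℕ} {w : Fin s → FreeGroup ι}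
  {C : Fin s → SpecialLinearGroup (Fin r) ℂ}

theorem good_iff (hC : ∀ j z, IsEigenvalue (C j) z → IsIntegral ℚ z)
    (V : Set (ι → SpecialLinearGroup (Fin r) ℂ)) :
    Good R (YW R w C) V ↔ IsIrrComp R (YW R w C) V ∧ (intPoints R V).Nonempty := by
  constructor
  · intro hV
    obtain ⟨D, hD⟩ := good_dense sepProp hC hV
    exact ⟨hV.1, hD.nonempty hV.1.2.1.1⟩
  · rintro ⟨hV, X, hX, hXL⟩
    refine ⟨hV, X, subset_closureIn R ?_ hX, hXL⟩
    rw [← hV.1]
    exact fun X hX => hX.1.1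

omit [Finite ι] in
theorem YW_sub : YW R w C ⊆ YNone R r := fun _ hX => hX.1

theorem comps_finite :
    {V | IsIrrComp R (YW R w C) V}.Finite ∧ ⋃₀ {V | IsIrrComp R (YW R w C) V} = YW R w C := by
  have hT : ∀ U, ∀ X ∈ YW R w C, conjX U X ∈ YW R w C := fun U X hX => YW_conj U hX
  have hfin : (vanIdeal (YW R w C)).minimalPrimes.Finite :=
    Ideal.finite_minimalPrimes_of_isNoetherianRing _ _
  constructor
  · refine (hfin.image (part (YW R w C))).subset ?_
    intro V hV
    obtain ⟨I, hI, rfl⟩ := (irrComp_iff sepProp hT YW_sub V).1 hV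
    exact ⟨I, hI, rfl⟩
  · refine subset_antisymm ?_ fun X hX => ?_
    · rintro X ⟨V, hV, hXV⟩
      rw [← hV.1] at hXV
      exact hXV.1
    · obtain ⟨I, hI, hIX⟩ := exists_part hX
      exact ⟨_, (irrComp_iff sepProp hT YW_sub _).2 ⟨I, hI, rfl⟩, hIX⟩

theorem main (hC : ∀ j z, IsEigenvalue (C j) z → IsIntegral ℚ z) :
    ∃ D : ℕ,
      (∀ V, IsIrrComp R (YW R w C) V → (intPoints R (closureIn R (YNone R r) V)).Nonempty →
        IsDenseDeg R D V ∧ IsDenseRepDeg D V) ∧
      closureIn R (YW R w C) (intPoints R (YW R w C)) =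
        ⋃₀ {V | IsIrrComp R (YW R w C) V ∧ (intPoints R V).Nonempty} ∧
      closureIn R (YW R w C) (repsDeg D (YW R w C)) =
        ⋃₀ {V | IsIrrComp R (YW R w C) V ∧ (intPoints R V).Nonempty} ∧
      (IsDenseAll R (YW R w C) ↔ ∀ V, IsIrrComp R (YW R w C) V → (intPoints R V).Nonempty) ∧
      (IsDenseAll R (YW R w C) → IsDenseDeg R D (YW R w C) ∧ IsDenseRepDeg D (YW R w C)) := by
  have hT : ∀ U, ∀ X ∈ YW R w C, conjX U X ∈ YW R w C := fun U X hX => YW_conj U hX
  obtain ⟨D₁, hD₁⟩ := exists_bound (R := R) (w := w) (C := C) sepProp hC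
  obtain ⟨D₂, h1, h2⟩ := closure_eq (R := R) (w := w) (C := C) sepProp hC
  have hg : {V | Good R (YW R w C) V} =
      {V | IsIrrComp R (YW R w C) V ∧ (intPoints R V).Nonempty} := by
    ext V
    exact good_iff hC V
  have hall : IsDenseAll R (YW R w C) ↔
      ∀ V, IsIrrComp R (YW R w C) V → (intPoints R V).Nonempty := by
    rw [all_good_iff sepProp hC]
    constructor
    · intro h V hV
      exact ((good_iff hC V).1 (h V hV)).2
    · intro h V hV
      exact (good_iff hC V).2 ⟨hV, h V hV⟩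
  have hsub : repsDeg D₂ (YW R w C) ⊆ repsDeg (max D₁ D₂) (YW R w C) := by
    rintro X ⟨hX, L, hL, hLD, hLX⟩
    exact ⟨hX, L, hL, hLD.trans (le_max_right _ _), hLX⟩
  refine ⟨max D₁ D₂, ?_, ?_, ?_, hall, ?_⟩
  · intro V hV h
    have h3 := (hD₁ V ⟨hV, h⟩).mono (le_max_left D₁ D₂)
    exact ⟨h3.isDenseDeg, h3⟩
  · rw [h2, hg]
  · rw [← hg, ← h2]
    refine subset_antisymm (closureIn_mono R (reps_subset _ _)) ?_
    rw [h1]
    exact closureIn_mono R hsub
  · intro h
    have h1 : IsDenseRepDeg (max D₁ D₂) (YW R w C) := by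
      intro F hF X hX
      obtain ⟨I, hI, hIX⟩ := exists_part hX
      have hG := (all_good_iff sepProp hC).1 h _ ((irrComp_iff sepProp hT YW_sub _).2 ⟨I, hI, rfl⟩)
      exact (hD₁ _ hG).mono (le_max_left D₁ D₂) F (fun X' hX' => hF X' hX'.1) X hIX
    exact ⟨h1.isDenseDeg, h1⟩

end main

end Vale.Agent.P002.H85
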