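import Vale.Agent.P002.H85.Det

/-!
# A function with few zeros
-/

namespace Vale.Agent.P002.H85

open Polynomial

variable {K A : Type*} [Field K] [CommRing A] [IsDomain A] [Algebra K A]

theorem exists_gamma {m : ℕ} (c : ℕ) (t : A) (u : Fin m → A)
    (span : ∀ x, ∃ p : Fin m → K[X], x = ∑ j, aeval t (p j) * u j)
    (ht : t ≠ 0) (P : A →ₐ[K] K) (hPt : P t = 0) (v : A) (hPv : P v ≠ 0) :
    ∃ γ : A, γ ≠ 0 ∧ (∃ p : Fin m → K[X], γ = ∑ j, aeval t (p j) * u j ∧
      ∀ j, (p j).natDegree + c < m * c + 1) ∧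
      ∀ x M, t ∣ v * x ^ M → t ^ (m * c + 1) ∣ γ * x ^ (M * (m * c + 1)) := by
  classical
  obtain _ | m := m
  · obtain ⟨p, hp⟩ := span 1
    simp at hp
  set n := (m + 1) * c + 1 with hn
  have hcn : c < n := by rw [hn]; nlinarith
  choose w hw using fun k : Fin n => span (t ^ (n - (k + 1 : ℕ)) * v ^ (k + 1 : ℕ))
  let Φ : (Fin n → K) →ₗ[K] (Fin (m + 1) × Fin c → K) :=
    { toFun := fun a q => ∑ k, a k * (w k q.1).coeff (n - c + q.2)
      map_add' := by
        intro a b
        ext q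
        simp only [Pi.add_apply, add_mul, Finset.sum_add_distrib]
      map_smul' := by
        intro a b
        ext q
        simp only [Pi.smul_apply, smul_eq_mul, Finset.mul_sum, RingHom.id_apply, mul_assoc] }
  have hker : LinearMap.ker Φ ≠ ⊥ := by
    apply LinearMap.ker_ne_bot_of_finrank_lt
    simp only [Module.finrank_fintype_fun_eq_card, Fintype.card_prod, Fintype.card_fin]
    omega
  obtain ⟨a, ha, ha0⟩ := Submodule.exists_mem_ne_zero_of_ne_bot hker
  have hΦ : ∀ j : Fin (m + 1), ∀ i : ℕ, n - c ≤ i → i < n →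
      ∑ k, a k * (w k j).coeff i = 0 := by
    intro j i h1 h2
    have := congrFun (LinearMap.mem_ker.1 ha) (j, ⟨i - (n - c), by omega⟩)
    simp only [Φ, LinearMap.coe_mk, AddHom.coe_mk, Pi.zero_apply] at this
    rw [← this]
    refine Finset.sum_congr rfl fun k _ => ?_
    congr 2
    omega
  let W : Fin (m + 1) → K[X] := fun j => ∑ k, C (a k) * w k j
  have hX : (X ^ n : K[X]).Monic := monic_X_pow n
  let g : Fin (m + 1) → K[X] := fun j => W j %ₘ X ^ n
  let q : Fin (m + 1) → K[X] := fun j => W j /ₘ X ^ n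
  have hWgq : ∀ j, W j = g j + X ^ n * q j := fun j => (modByMonic_add_div (W j) (X ^ n)).symm
  have hgdeg : ∀ j, (g j).natDegree < n := by
    intro j
    have := degree_modByMonic_lt (W j) hX
    rw [degree_X_pow] at this
    by_cases h0 : g j = 0
    · rw [h0]; simp; omega
    · exact (natDegree_lt_iff_degree_lt h0).2 this
  have hgc : ∀ j, ∀ i : ℕ, n - c ≤ i → i < n → (g j).coeff i = 0 := by
    intro j i h1 h2
    have h3 : (W j).coeff i = 0 := by
      simp only [W, finsetSum_coeff, coeff_C_mul]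
      exact hΦ j i h1 h2
    rw [hWgq j, coeff_add, coeff_X_pow_mul', if_neg (by omega), add_zero] at h3
    exact h3
  have hgd : ∀ j, (g j).natDegree + c < n := by
    intro j
    by_contra hcon
    push Not at hcon
    by_cases h0 : g j = 0
    · rw [h0] at hcon; simp at hcon; omega
    · have := hgc j (g j).natDegree (by omega) (hgdeg j)
      exact h0 (leadingCoeff_eq_zero.1 this)
  have key : ∑ k : Fin n, algebraMap K A (a k) * (t ^ (n - (k + 1 : ℕ)) * v ^ (k + 1 : ℕ)) =
      ∑ j, aeval t (g j) * u j + t ^ n * ∑ j, aeval t (q j) * u j := by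
    have h1 : ∀ k : Fin n, algebraMap K A (a k) * (t ^ (n - (k + 1 : ℕ)) * v ^ (k + 1 : ℕ)) =
        ∑ j, aeval t (C (a k) * w k j) * u j := by
      intro k
      rw [hw k, Finset.mul_sum]
      refine Finset.sum_congr rfl fun j _ => ?_
      rw [map_mul, aeval_C]
      ring
    rw [Finset.sum_congr rfl fun k _ => h1 k, Finset.sum_comm, Finset.mul_sum,
      ← Finset.sum_add_distrib]
    refine Finset.sum_congr rfl fun j _ => ?_
    rw [← Finset.sum_mul, ← map_sum]
    change aeval t (W j) * u j = _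
    rw [hWgq j, map_add, map_mul, map_pow, aeval_X]
    ring
  refine ⟨∑ j, aeval t (g j) * u j, ?_, ⟨g, rfl, hgd⟩, ?_⟩
  · intro h0
    rw [h0, zero_add] at key
    -- the largest index with `a k ≠ 0`
    have hex : ∃ k, a k ≠ 0 := by
      by_contra hcon
      push Not at hcon
      exact ha0 (funext hcon)
    obtain ⟨k₀, hk₀, hmax⟩ : ∃ k₀, a k₀ ≠ 0 ∧ ∀ k, k₀ < k → a k = 0 := by
      obtain ⟨k₀, hk, hm⟩ := (Finset.univ.filter fun k => a k ≠ 0).exists_maximal
        (by obtain ⟨k, hk⟩ := hex; exact ⟨k, by simp [hk]⟩)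
      refine ⟨k₀, by simpa using hk, fun k hkk => ?_⟩
      by_contra hne
      have := hm (by simp [hne] : k ∈ Finset.univ.filter fun k => a k ≠ 0) hkk.le
      exact absurd this (not_le.2 hkk)
    have hfac : ∑ k : Fin n, algebraMap K A (a k) *
        (t ^ (n - (k + 1 : ℕ)) * v ^ (k + 1 : ℕ)) =
        t ^ (n - (k₀ + 1 : ℕ)) * ∑ k : Fin n, algebraMap K A (a k) *
          (t ^ ((k₀ : ℕ) - (k : ℕ)) * v ^ (k + 1 : ℕ)) := by
      rw [Finset.mul_sum]
      refine Finset.sum_congr rfl fun k _ => ?_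
      rcases lt_or_ge k₀ k with h | h
      · rw [hmax k h, map_zero, zero_mul, zero_mul, mul_zero]
      · have : n - ((k : ℕ) + 1) = (n - ((k₀ : ℕ) + 1)) + ((k₀ : ℕ) - (k : ℕ)) := by
          have h1 := k₀.2
          have h2 : (k : ℕ) ≤ k₀ := h
          omega
        rw [this, pow_add]
        ring
    have htn : t ^ n = t ^ (n - (k₀ + 1 : ℕ)) * t ^ ((k₀ : ℕ) + 1) := by
      rw [← pow_add]
      congr 1
      have h1 := k₀.2
      omega
    rw [hfac, htn, mul_assoc] at key
    have key2 := mul_left_cancel₀ (pow_ne_zero _ ht) key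
    have key3 := congrArg P key2
    rw [map_sum, map_mul, map_pow, hPt, zero_pow (Nat.succ_ne_zero _), zero_mul,
      Finset.sum_eq_single k₀] at key3
    · rw [map_mul, AlgHom.commutes, map_mul, map_pow, map_pow, Nat.sub_self, pow_zero,
        one_mul] at key3
      rcases mul_eq_zero.1 key3 with h | h
      · exact hk₀ h
      · exact hPv (pow_eq_zero_iff (Nat.succ_ne_zero _) |>.1 h)
    · intro k _ hk
      rcases lt_or_gt_of_ne hk with h | h
      · rw [map_mul, map_mul, map_pow, hPt, zero_pow, zero_mul, mul_zero]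
        have : (k : ℕ) < k₀ := h
        omega
      · rw [hmax k h, map_zero, zero_mul, map_zero]
    · intro h
      exact absurd (Finset.mem_univ _) h
  · intro x M hx
    have hγ : ∑ j, aeval t (g j) * u j = ∑ k : Fin n, algebraMap K A (a k) *
        (t ^ (n - (k + 1 : ℕ)) * v ^ (k + 1 : ℕ)) - t ^ n * ∑ j, aeval t (q j) * u j := by
      rw [key]; ring
    rw [hγ, sub_mul, Finset.sum_mul]
    refine dvd_sub (Finset.dvd_sum fun k _ => ?_) ?_
    · have h1 : t ^ ((k : ℕ) + 1) ∣ (v * x ^ M) ^ ((k : ℕ) + 1) := pow_dvd_pow_of_dvd hx _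
      have h2 : n = (n - ((k : ℕ) + 1)) + ((k : ℕ) + 1) := by
        have := k.2
        omega
      have h3 : M * n = M * ((k : ℕ) + 1) + M * (n - ((k : ℕ) + 1)) := by
        conv_lhs => rw [h2]
        ring
      have h4 : algebraMap K A (a k) * (t ^ (n - ((k : ℕ) + 1)) * v ^ ((k : ℕ) + 1)) *
          x ^ (M * n) = t ^ (n - ((k : ℕ) + 1)) * (v * x ^ M) ^ ((k : ℕ) + 1) *
          (algebraMap K A (a k) * x ^ (M * (n - ((k : ℕ) + 1)))) := by
        rw [h3, pow_add, mul_pow, ← pow_mul]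
        ring
      rw [h4]
      refine Dvd.dvd.mul_right ?_ _
      conv_lhs => rw [h2, pow_add]
      exact mul_dvd_mul_left _ h1
    · rw [mul_assoc]
      exact Dvd.intro _ rfl

end Vale.Agent.P002.H85
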