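import Vale.Agent.P002.H85.Jordan

/-!
# Conjugacy classes with algebraic eigenvalues contain matrices over the algebraic numbers
-/

namespace Vale.Agent.P002.H85

open Matrix Vale.Agent.P002R.Orb
open Vale.Agent.P002.H306 (KK)

theorem mem_KK {z : ℂ} (hz : IsIntegral ℚ z) : z ∈ KK := by
  exact mem_algebraicClosure_iff.2 hz.isAlgebraic

theorem exists_J {r : ℕ} (C : SpecialLinearGroup (Fin r) ℂ)
    (hC : ∀ z, IsEigenvalue C z → IsIntegral ℚ z) :
    ∃ J : SpecialLinearGroup (Fin r) KK,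
      IsConj C (SpecialLinearGroup.map (algebraMap KK ℂ) J) := by
  obtain ⟨d, ν, -, -, hch, hP⟩ := exists_jordan C.1
  obtain ⟨P, hP⟩ := hP 1 one_ne_zero
  rw [one_smul] at hP
  have hd : ∀ i, d i ∈ KK := by
    intro i
    apply mem_KK
    apply hC
    rw [IsEigenvalue, hch, Polynomial.IsRoot, Polynomial.eval_prod]
    exact Finset.prod_eq_zero (Finset.mem_univ i) (by simp)
  let J₀ : Matrix (Fin r) (Fin r) KK :=
    Matrix.diagonal (fun i => (⟨d i, hd i⟩ : KK)) + ν.map (Int.cast : ℤ → KK)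
  have hJ₀ : J₀.map (algebraMap KK ℂ) = diagonal d + ν.map (Int.cast : ℤ → ℂ) := by
    ext i j
    simp only [J₀, Matrix.map_apply, Matrix.add_apply, map_add, map_intCast,
      Matrix.diagonal_apply]
    congr 1
    split_ifs
    · rfl
    · exact map_zero _
  have hdet : J₀.det = 1 := by
    have h1 : (J₀.map (algebraMap KK ℂ)).det = 1 := by
      have h2 : C.1.det = 1 := C.2
      rw [hP, Matrix.det_mul, Matrix.det_mul, mul_right_comm, ← Matrix.det_mul,
        ← Units.val_mul, mul_inv_cancel, Units.val_one, Matrix.det_one, one_mul] at h2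
      rw [hJ₀, h2]
    have h3 : algebraMap KK ℂ J₀.det = 1 := by
      rw [RingHom.map_det]
      exact h1
    exact (algebraMap KK ℂ).injective (by rw [h3, map_one])
  refine ⟨⟨J₀, hdet⟩, ?_⟩
  refine isConj_of_mul (P⁻¹ : (Matrix (Fin r) (Fin r) ℂ)ˣ).1 ?_ ?_
  · exact ((Matrix.isUnit_iff_isUnit_det _).1 (P⁻¹).isUnit).ne_zero
  · have h1 : (SpecialLinearGroup.map (algebraMap KK ℂ) (⟨J₀, hdet⟩ :
        SpecialLinearGroup (Fin r) KK)).1 = J₀.map (algebraMap KK ℂ) := rfl
    rw [h1, hJ₀]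
    conv_lhs => rw [hP]
    rw [← Matrix.mul_assoc, ← Matrix.mul_assoc, ← Units.val_mul, inv_mul_cancel, Units.val_one,
      Matrix.one_mul]

end Vale.Agent.P002.H85
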