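import Vale.Agent.P002.H85.Open

set_option linter.all false

/-! Jordan normal form over `ℂ`, with integral nilpotent part of arbitrary scale. -/

namespace Vale.Agent.P002.H85

open Matrix

universe u

theorem jordan_vector {V : Type u} [AddCommGroup V] [Module ℂ V] [FiniteDimensional ℂ V]
    [Nontrivial V] (T : Module.End ℂ V) :
    ∃ (lam : ℂ) (m : ℕ) (v : V) (φ : V →ₗ[ℂ] ℂ), 0 < m ∧ ((T - lam • 1) ^ m) v = 0 ∧
      (∀ x, φ (((T - lam • 1) ^ m) x) = 0) ∧ φ (((T - lam • 1) ^ (m - 1)) v) ≠ 0 := by
  classical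
  obtain ⟨lam, hlam⟩ := Module.End.exists_eigenvalue T
  set N : Module.End ℂ V := T - lam • 1 with hN
  have hex : ∃ k : ℕ, LinearMap.ker (N ^ k) = LinearMap.ker (N ^ (k + 1)) := by
    obtain ⟨k, _, hk⟩ := Module.End.exists_ker_pow_eq_ker_pow_succ N
    exact ⟨k, hk⟩
  have hspec := Nat.find_spec hex
  set m := Nat.find hex with hm
  have hm0 : 0 < m := by
    rcases Nat.eq_zero_or_pos m with h0 | h0
    · exfalso
      rw [h0] at hspec
      have h1 : LinearMap.ker N = ⊥ := by
        rw [zero_add, pow_one, pow_zero] at hspec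
        rw [← hspec]
        exact LinearMap.ker_id
      apply hlam
      change Module.End.eigenspace T lam = ⊥
      rw [Module.End.eigenspace_def]
      exact h1
    · exact h0
  have hmin : LinearMap.ker (N ^ (m - 1)) ≠ LinearMap.ker (N ^ m) := by
    have := Nat.find_min hex (m := m - 1) (by omega)
    rwa [Nat.sub_add_cancel hm0] at this
  have hle : LinearMap.ker (N ^ (m - 1)) ≤ LinearMap.ker (N ^ m) := by
    intro x hx
    rw [LinearMap.mem_ker] at hx ⊢
    have : N ^ m = N * N ^ (m - 1) := by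
      rw [← pow_succ', Nat.sub_add_cancel hm0]
    rw [this, Module.End.mul_apply, hx, map_zero]
  obtain ⟨v, hv, hv'⟩ : ∃ v ∈ LinearMap.ker (N ^ m), v ∉ LinearMap.ker (N ^ (m - 1)) := by
    by_contra hcon
    push Not at hcon
    exact hmin (le_antisymm hle hcon)
  have hnot : (N ^ (m - 1)) v ∉ LinearMap.range (N ^ m) := by
    rintro ⟨w, hw⟩
    have h1 : (N ^ (m + 1)) w = 0 := by
      rw [pow_succ', Module.End.mul_apply, hw]
      have : N ^ m = N * N ^ (m - 1) := by
        rw [← pow_succ', Nat.sub_add_cancel hm0]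
      rw [LinearMap.mem_ker, this, Module.End.mul_apply] at hv
      exact hv
    have h2 : w ∈ LinearMap.ker (N ^ m) := by
      rw [hspec]
      exact h1
    rw [LinearMap.mem_ker] at h2 hv'
    rw [h2] at hw
    exact hv' hw.symm
  obtain ⟨φ, hφ1, hφ2⟩ := Submodule.exists_le_ker_of_notMem hnot
  exact ⟨lam, m, v, φ, hm0, hv, fun x => hφ2 ⟨x, rfl⟩, hφ1⟩

/-- a Jordan basis indexed by a finite type -/
def HasJordan (V : Type u) [AddCommGroup V] [Module ℂ V] (T : Module.End ℂ V) : Prop :=
  ∃ (ι : Type) (_ : Fintype ι) (_ : DecidableEq ι) (b : Module.Basis ι ℂ V) (d : ι → ℂ)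
    (pre : ι → Option ι) (h : ι → ℕ),
    (∀ j, T (b j) = d j • b j + (pre j).elim 0 b) ∧ ∀ i j, pre j = some i → h j = h i + 1

theorem exists_jordan_aux (n : ℕ) : ∀ (V : Type u) [AddCommGroup V] [Module ℂ V]
    [FiniteDimensional ℂ V] (T : Module.End ℂ V), Module.finrank ℂ V = n → HasJordan V T := by
  classical
  induction n using Nat.strong_induction_on with
  | _ n ih =>
  intro V _ _ _ T hV
  rcases Nat.eq_zero_or_pos n with rfl | hn
  · have : Subsingleton V := Module.finrank_zero_iff.mp hV
    exact ⟨Empty, inferInstance, inferInstance, Module.Basis.empty V, fun j => j.elim,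
      fun j => j.elim, fun j => j.elim, fun j => j.elim, fun i => i.elim⟩
  have : Nontrivial V := Module.finrank_pos_iff.mp (by omega : 0 < Module.finrank ℂ V)
  obtain ⟨lam, m, v, φ, hm, hv, hφ0, hφ1⟩ := jordan_vector T
  set N : Module.End ℂ V := T - lam • 1 with hN
  have hT : ∀ x, T x = lam • x + N x := by
    intro x
    simp [hN]
  let α : (Fin m → ℂ) →ₗ[ℂ] V := Fintype.linearCombination ℂ fun k : Fin m => (N ^ (k : ℕ)) v
  have hα : ∀ a, α a = ∑ k, a k • (N ^ (k : ℕ)) v := fun a =>
    Fintype.linearCombination_apply ℂ _ a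
  let β : V →ₗ[ℂ] (Fin m → ℂ) := LinearMap.pi fun k : Fin m => φ ∘ₗ (N ^ (k : ℕ))
  have hβ : ∀ x k, β x k = φ ((N ^ (k : ℕ)) x) := fun x k => rfl
  have hvbig : ∀ k, m ≤ k → (N ^ k) v = 0 := by
    intro k hk
    obtain ⟨l, rfl⟩ := Nat.exists_eq_add_of_le' hk
    rw [pow_add, Module.End.mul_apply, hv, map_zero]
  have hinj : ∀ a, β (α a) = 0 → a = 0 := by
    intro a ha
    by_contra hne
    have hex : ∃ k : ℕ, ∃ hk : k < m, a ⟨k, hk⟩ ≠ 0 := by
      by_contra hcon
      push Not at hcon
      exact hne (funext fun k => hcon k k.2)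
    obtain ⟨hk, hak⟩ := Nat.find_spec hex
    set k₀ := Nat.find hex with hk₀
    have hmin : ∀ k (hk : k < m), k < k₀ → a ⟨k, hk⟩ = 0 := by
      intro k hk' hlt
      by_contra hcon
      exact Nat.find_min hex hlt ⟨hk', hcon⟩
    have h1 := congrFun ha ⟨m - 1 - k₀, by omega⟩
    rw [hβ, hα, map_sum, map_sum, Finset.sum_eq_single ⟨k₀, hk⟩] at h1
    · rw [map_smul, map_smul, ← Module.End.mul_apply, ← pow_add, smul_eq_mul] at h1
      simp only [Pi.zero_apply] at h1
      have e : m - 1 - k₀ + k₀ = m - 1 := by omega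
      rw [e] at h1
      rcases mul_eq_zero.mp h1 with h2 | h2
      · exact hak h2
      · exact hφ1 h2
    · intro k _ hkne
      rcases lt_or_ge (k : ℕ) k₀ with hlt | hge
      · rw [hmin k k.2 hlt, zero_smul, map_zero, map_zero]
      · have hgt : k₀ < (k : ℕ) := by
          rcases Nat.lt_or_eq_of_le hge with h | h
          · exact h
          · exact absurd (Fin.ext h.symm) hkne
        rw [map_smul, ← Module.End.mul_apply, ← pow_add, hvbig _ (by
          simp only
          omega), smul_zero, map_zero]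
    · intro h
      exact absurd (Finset.mem_univ _) h
  let U := LinearMap.ker β
  have hUN : ∀ x ∈ U, N x ∈ U := by
    intro x hx
    rw [LinearMap.mem_ker] at hx ⊢
    funext k
    rw [hβ, ← Module.End.mul_apply, ← pow_succ]
    by_cases hk : (k : ℕ) + 1 < m
    · have := congrFun hx ⟨(k : ℕ) + 1, hk⟩
      rw [hβ] at this
      exact this
    · have : (k : ℕ) + 1 = m := by omega
      rw [this, hφ0]
      rfl
  have hUT : ∀ x ∈ U, T x ∈ U := by
    intro x hx
    rw [hT]
    exact U.add_mem (U.smul_mem _ hx) (hUN x hx)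
  let Φ : ((Fin m → ℂ) × U) →ₗ[ℂ] V := LinearMap.coprod α U.subtype
  have hΦ : ∀ p, Φ p = α p.1 + (p.2 : V) := fun p => rfl
  have hβU : ∀ x : U, β (x : V) = 0 := fun x => x.2
  have hΦinj : Function.Injective Φ := by
    rw [← LinearMap.ker_eq_bot, LinearMap.ker_eq_bot']
    rintro ⟨a, x⟩ hp
    rw [hΦ] at hp
    have h1 : β (α a) = 0 := by
      have := congrArg β hp
      rw [map_add, hβU, add_zero, map_zero] at this
      exact this
    have ha := hinj a h1
    subst ha
    rw [map_zero, zero_add] at hp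
    ext1
    · rfl
    · exact Subtype.ext hp
  have hsurj0 : Function.Surjective (β ∘ₗ α) := by
    rw [← LinearMap.injective_iff_surjective, ← LinearMap.ker_eq_bot, LinearMap.ker_eq_bot']
    exact hinj
  have hΦsurj : Function.Surjective Φ := by
    intro x
    obtain ⟨a, ha⟩ := hsurj0 (β x)
    refine ⟨(a, ⟨x - α a, ?_⟩), ?_⟩
    · rw [LinearMap.mem_ker, map_sub, ← ha]
      exact sub_self _
    · rw [hΦ]
      simp
  let Ψ : ((Fin m → ℂ) × U) ≃ₗ[ℂ] V := LinearEquiv.ofBijective Φ ⟨hΦinj, hΦsurj⟩
  have hdim : Module.finrank ℂ U < n := by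
    have h1 := Ψ.finrank_eq
    rw [Module.finrank_prod, Module.finrank_fin_fun, hV] at h1
    omega
  obtain ⟨ι, _, _, b, d, pre, h, hb1, hb2⟩ := ih _ hdim U (T.restrict hUT) rfl
  refine ⟨Fin m ⊕ ι, inferInstance, inferInstance,
    (Module.Basis.prod (Pi.basisFun ℂ (Fin m)) b).map Ψ,
    Sum.elim (fun _ => lam) d,
    Sum.elim (fun k => if hk : (k : ℕ) + 1 < m then some (Sum.inl ⟨(k : ℕ) + 1, hk⟩) else none)
      (fun j => (pre j).map Sum.inr),
    Sum.elim (fun k => m - 1 - (k : ℕ)) h, ?_, ?_⟩
  · have hl : ∀ k : Fin m, ((Module.Basis.prod (Pi.basisFun ℂ (Fin m)) b).map Ψ) (Sum.inl k) =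
        (N ^ (k : ℕ)) v := by
      intro k
      rw [Module.Basis.map_apply]
      change Φ _ = _
      rw [hΦ, hα]
      simp [Pi.single_apply]
    have hr : ∀ j : ι, ((Module.Basis.prod (Pi.basisFun ℂ (Fin m)) b).map Ψ) (Sum.inr j) =
        (b j : V) := by
      intro j
      rw [Module.Basis.map_apply]
      change Φ _ = _
      rw [hΦ, hα]
      simp
    rintro (k | j)
    · simp only [hl, Sum.elim_inl]
      rw [hT, ← Module.End.mul_apply, ← pow_succ']
      congr 1
      by_cases hk : (k : ℕ) + 1 < m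
      · rw [dif_pos hk, Option.elim_some, hl]
      · rw [dif_neg hk, Option.elim_none]
        exact hvbig _ (by omega)
    · simp only [hr, Sum.elim_inr]
      have h1 := congrArg (fun z : U => (z : V)) (hb1 j)
      simp only [LinearMap.coe_restrict_apply, Submodule.coe_add, Submodule.coe_smul] at h1
      rw [h1]
      congr 1
      cases pre j with
      | none => rfl
      | some i => simp [hr]
  · rintro (i | i) (j | j) hij
    · simp only [Sum.elim_inl] at hij ⊢
      by_cases hk : (j : ℕ) + 1 < m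
      · rw [dif_pos hk] at hij
        have : (i : ℕ) = (j : ℕ) + 1 := by
          have := Sum.inl.inj (Option.some.inj hij)
          rw [← this]
        omega
      · rw [dif_neg hk] at hij
        exact absurd hij (by simp)
    · simp only [Sum.elim_inr] at hij
      cases hp : pre j with
      | none => rw [hp] at hij; simp at hij
      | some i' => rw [hp] at hij; simp at hij
    · simp only [Sum.elim_inl] at hij
      by_cases hk : (j : ℕ) + 1 < m
      · rw [dif_pos hk] at hij
        simp at hij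
      · rw [dif_neg hk] at hij
        exact absurd hij (by simp)
    · simp only [Sum.elim_inr] at hij ⊢
      cases hp : pre j with
      | none => rw [hp] at hij; simp at hij
      | some i' =>
        rw [hp] at hij
        simp only [Option.map_some, Option.some.injEq, Sum.inr.injEq] at hij
        subst hij
        exact hb2 _ _ hp


theorem charpoly_diag_add {r : ℕ} (d : Fin r → ℂ) (ν : Matrix (Fin r) (Fin r) ℤ)
    (hν : ∀ i j, ¬ i < j → ν i j = 0) (N₀ : ℂ) :
    (diagonal d + N₀ • ν.map (Int.cast : ℤ → ℂ)).charpoly =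
      ∏ i, (Polynomial.X - Polynomial.C (d i)) := by
  rw [Matrix.charpoly_of_isUpperTriangular]
  · refine Finset.prod_congr rfl fun k _ => ?_
    rw [Matrix.add_apply, Matrix.diagonal_apply_eq, Matrix.smul_apply, Matrix.map_apply,
      hν k k (lt_irrefl k)]
    simp
  · intro i j hij
    have hji : j < i := hij
    have h1 : (diagonal d + N₀ • ν.map (Int.cast : ℤ → ℂ)) i j = 0 := by
      rw [Matrix.add_apply, Matrix.smul_apply, Matrix.map_apply,
        hν i j (not_lt.mpr (le_of_lt hji)), Matrix.diagonal_apply_ne _ (ne_of_gt hji)]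
      simp
    exact h1

/-- JORDAN FORM. Every complex matrix is conjugate to `diagonal d + N • ν` with `ν` a strictly
upper triangular matrix of zeros and ones, for every nonzero scale `N`. -/
theorem exists_jordan {r : ℕ} (C : Matrix (Fin r) (Fin r) ℂ) :
    ∃ (d : Fin r → ℂ) (ν : Matrix (Fin r) (Fin r) ℤ),
      (∀ i j, ν i j = 0 ∨ ν i j = 1) ∧ (∀ i j, ¬ i < j → ν i j = 0) ∧
      C.charpoly = ∏ i, (Polynomial.X - Polynomial.C (d i)) ∧
      ∀ N₀ : ℂ, N₀ ≠ 0 → ∃ P : (Matrix (Fin r) (Fin r) ℂ)ˣ,
        C = (P : Matrix (Fin r) (Fin r) ℂ) * (diagonal d + N₀ • ν.map (Int.cast : ℤ → ℂ)) *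
          ((P⁻¹ : (Matrix (Fin r) (Fin r) ℂ)ˣ) : Matrix (Fin r) (Fin r) ℂ) := by
  classical
  obtain ⟨ι, _, _, b, d, pre, h, hb, hpre⟩ :=
    exists_jordan_aux r (Fin r → ℂ) (Matrix.mulVecLin C) (by simp)
  have hcard : Fintype.card ι = r := by
    rw [← Module.finrank_eq_card_basis b]
    simp
  let e₀ : ι ≃ Fin r := Fintype.equivFinOfCardEq hcard
  let f : Fin r → ℕ := fun k => h (e₀.symm k)
  let τ : Equiv.Perm (Fin r) := Tuple.sort f
  have hmono : Monotone (f ∘ τ) := Tuple.monotone_sort f
  let e : ι ≃ Fin r := e₀.trans τ.symm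
  have he : ∀ k, h (e.symm k) = (f ∘ τ) k := fun k => rfl
  have hlt : ∀ i j, h i < h j → e i < e j := by
    intro i j hij
    by_contra hcon
    push Not at hcon
    have := hmono hcon
    rw [← he, ← he, Equiv.symm_apply_apply, Equiv.symm_apply_apply] at this
    omega
  let ν : Matrix (Fin r) (Fin r) ℤ := Matrix.of fun i j =>
    if pre (e.symm j) = some (e.symm i) then 1 else 0
  have hν : ∀ i j, ν i j = if pre (e.symm j) = some (e.symm i) then 1 else 0 := fun i j => rfl
  have hνlt : ∀ i j, ¬ i < j → ν i j = 0 := by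
    intro i j hij
    rw [hν]
    by_cases hp : pre (e.symm j) = some (e.symm i)
    · exfalso
      apply hij
      have h1 := hpre _ _ hp
      have h2 := hlt (e.symm i) (e.symm j) (by omega)
      simpa using h2
    · rw [if_neg hp]
  have hconj : ∀ N₀ : ℂ, N₀ ≠ 0 → ∃ P : (Matrix (Fin r) (Fin r) ℂ)ˣ,
        C = (P : Matrix (Fin r) (Fin r) ℂ) * (diagonal (fun k => d (e.symm k)) +
          N₀ • ν.map (Int.cast : ℤ → ℂ)) *
          ((P⁻¹ : (Matrix (Fin r) (Fin r) ℂ)ˣ) : Matrix (Fin r) (Fin r) ℂ) := by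
    intro N₀ hN₀
    let b' : Module.Basis (Fin r) ℂ (Fin r → ℂ) := b.reindex e
    let b'' : Module.Basis (Fin r) ℂ (Fin r → ℂ) :=
      b'.unitsSMul fun k => (Units.mk0 N₀ hN₀) ^ (h (e.symm k))
    have hb'' : ∀ k, b'' k = N₀ ^ (h (e.symm k)) • b (e.symm k) := by
      intro k
      simp only [b'', b', Module.Basis.unitsSMul_apply, Module.Basis.reindex_apply]
      rw [Units.smul_def]
      simp
    let P₀ : Matrix (Fin r) (Fin r) ℂ := (Pi.basisFun ℂ (Fin r)).toMatrix b''
    have hP₀ : ∀ i j, P₀ i j = b'' j i := by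
      intro i j
      simp [P₀, Module.Basis.toMatrix_apply]
    have hu : IsUnit P₀ := by
      have := (Pi.basisFun ℂ (Fin r)).invertibleToMatrix b''
      exact isUnit_of_invertible _
    obtain ⟨P, hP⟩ := hu
    refine ⟨P, ?_⟩
    have key : C * P₀ = P₀ * (diagonal (fun k => d (e.symm k)) +
        N₀ • ν.map (Int.cast : ℤ → ℂ)) := by
      ext i j
      have h1 := congrFun (hb (e.symm j)) i
      rw [Matrix.mulVecLin_apply] at h1
      have h2 : (C * P₀) i j = N₀ ^ (h (e.symm j)) * (C *ᵥ (b (e.symm j))) i := by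
        rw [Matrix.mul_apply, Matrix.mulVec, dotProduct, Finset.mul_sum]
        refine Finset.sum_congr rfl fun k _ => ?_
        rw [hP₀, hb'', Pi.smul_apply, smul_eq_mul]
        ring
      rw [h2, h1, Matrix.mul_add, Matrix.add_apply, Matrix.mul_diagonal, hP₀, hb'']
      simp only [Pi.add_apply, Pi.smul_apply, smul_eq_mul, mul_add]
      congr 1
      · ring
      · rw [Matrix.mul_smul, Matrix.smul_apply, smul_eq_mul, Matrix.mul_apply]
        cases hp : pre (e.symm j) with
        | none =>
          rw [Option.elim_none]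
          rw [Finset.sum_eq_zero]
          · simp
          · intro k _
            rw [Matrix.map_apply, hν, hp]
            simp
        | some i' =>
          rw [Option.elim_some, Finset.sum_eq_single (e i')]
          · rw [Matrix.map_apply, hν, hp, Equiv.symm_apply_apply, if_pos rfl, hP₀, hb'',
              Equiv.symm_apply_apply, Pi.smul_apply, smul_eq_mul, Int.cast_one, mul_one,
              hpre _ _ hp, pow_succ]
            ring
          · intro k _ hk
            rw [Matrix.map_apply, hν, hp, if_neg, Int.cast_zero, mul_zero]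
            intro hcon
            apply hk
            rw [Option.some.inj hcon, Equiv.apply_symm_apply]
          · intro hcon
            exact absurd (Finset.mem_univ _) hcon
    rw [← hP] at key
    rw [← key, Matrix.mul_assoc, ← Units.val_mul, mul_inv_cancel, Units.val_one, Matrix.mul_one]
  refine ⟨fun k => d (e.symm k), ν, ?_, hνlt, ?_, hconj⟩
  · intro i j
    rw [hν]
    by_cases hp : pre (e.symm j) = some (e.symm i)
    · right; rw [if_pos hp]
    · left; rw [if_neg hp]
  · obtain ⟨P, hP⟩ := hconj 1 one_ne_zero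
    rw [hP, Matrix.mul_assoc, Matrix.charpoly_mul_comm, Matrix.mul_assoc, ← Units.val_mul,
      inv_mul_cancel, Units.val_one, Matrix.mul_one]
    exact charpoly_diag_add _ ν hνlt 1

end Vale.Agent.P002.H85
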