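import Vale.Agent.P002.H85.CurvePoints

/-!
# Integral points on a variety with one integral point
-/

namespace Vale.Agent.P002.H85

open Polynomial

theorem variety_points {K k A : Type*} [Field K] [Field k] [IsAlgClosed k] [Algebra K k]
    [CommRing A] [IsDomain A] [Algebra K A] [Algebra.FiniteType K A]
    [CharZero K] (hK : Den K) (P : A →ₐ[K] K) {n₀ : ℕ} (x : Fin n₀ → A)
    (hx : ∀ i, IsIntegral ℤ (P (x i))) :
    ∃ D : ℕ, ∀ g : A, g ≠ 0 → ∃ ψ : A →ₐ[K] k, (∀ i, IsIntegral ℤ (ψ (x i))) ∧ ψ g ≠ 0 ∧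
      ∃ s : Finset k, s.card ≤ D ∧ ∀ a, ψ a ∈ Submodule.span K (s : Set k) := by
  classical
  obtain ⟨d, G, hG, hGf⟩ := exists_finite_inj_algHom_of_fg K A
  set R := MvPolynomial (Fin d) K with hR
  let _ : Algebra R A := G.toRingHom.toAlgebra
  have hGR : ∀ r : R, algebraMap R A r = G r := fun r => rfl
  have hsm : ∀ (r : R) (a : A), r • a = G r * a := fun r a => rfl
  have hfin : Module.Finite R A := hGf
  have hfaith : FaithfulSMul R A := (faithfulSMul_iff_algebraMap_injective R A).2 hG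
  have hst : IsScalarTower K R A := IsScalarTower.of_algebraMap_eq fun z => by
    rw [hGR, AlgHom.map_algebraMap]
  obtain ⟨m, u, hu⟩ := Module.Finite.exists_fin (R := R) (M := A)
  have hspan : ∀ y : A, ∃ r : Fin m → R, y = ∑ j, G (r j) * u j := by
    intro y
    have hy : y ∈ Submodule.span R (Set.range u) := by rw [hu]; trivial
    obtain ⟨r, hr⟩ := (Submodule.mem_span_range_iff_exists_fun R).1 hy
    exact ⟨r, hr.symm⟩
  choose q hq using fun j k => hspan (u j * u k)
  set c := Finset.univ.sup fun w : Fin m × Fin m × Fin m => (q w.1 w.2.1 w.2.2).totalDegree with hc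
  have hqc : ∀ j k l, (q j k l).totalDegree ≤ c := fun j k l =>
    Finset.le_sup (f := fun w : Fin m × Fin m × Fin m => (q w.1 w.2.1 w.2.2).totalDegree)
      (Finset.mem_univ (j, k, l))
  refine ⟨max 1 (m * (m * c + 1) * m), fun g hg => ?_⟩
  by_cases hPg : P g = 0
  swap
  · refine ⟨(Algebra.ofId K k).comp P, fun i => (hx i).map (algebraMap K k).toIntAlgHom, ?_,
      {1}, by simp, ?_⟩
    · intro h
      exact hPg ((map_eq_zero (algebraMap K k)).1 h)
    · intro a
      rw [Finset.coe_singleton, Submodule.mem_span_singleton]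
      exact ⟨P a, by rw [Algebra.smul_def, mul_one]; rfl⟩
  -- a polynomial divisible by `g`
  obtain ⟨r, hrg, hr0⟩ : ∃ r : R, G r ∈ Ideal.span {g} ∧ r ≠ 0 := by
    have h1 := Ideal.comap_ne_bot_of_integral_mem (R := R) (S := A) (I := Ideal.span {g})
      (x := g) hg (Ideal.mem_span_singleton_self _) (Algebra.IsIntegral.isIntegral _)
    obtain ⟨y, hy, hy0⟩ := Submodule.exists_mem_ne_zero_of_ne_bot h1
    exact ⟨y, hy, hy0⟩
  obtain ⟨b, hb⟩ : ∃ b : Fin d → K, MvPolynomial.eval b r ≠ 0 := by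
    by_contra hcon
    push Not at hcon
    exact hr0 (MvPolynomial.funext fun b => by rw [hcon b, map_zero])
  set c₀ : Fin d → K := fun j => P (G (MvPolynomial.X j)) with hc₀
  have hPG : ∀ r : R, P (G r) = MvPolynomial.eval c₀ r := by
    intro r
    have : P.comp G = MvPolynomial.aeval c₀ := MvPolynomial.algHom_ext fun j => by
      rw [MvPolynomial.aeval_X]; rfl
    have h2 := AlgHom.congr_fun this r
    rw [MvPolynomial.aeval_eq_eval] at h2
    exact h2
  let ℓ : R →ₐ[K] K[X] := MvPolynomial.aeval fun j => C (c₀ j) + C (b j - c₀ j) * X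
  have hℓ0 : ∀ r, (ℓ r).eval 0 = MvPolynomial.eval c₀ r := by
    intro r
    have : (aeval (0 : K) : K[X] →ₐ[K] K).comp ℓ = MvPolynomial.aeval c₀ :=
      MvPolynomial.algHom_ext fun j => by simp [ℓ]
    have h2 := AlgHom.congr_fun this r
    rw [MvPolynomial.aeval_eq_eval, AlgHom.comp_apply, coe_aeval_eq_eval] at h2
    exact h2
  have hℓ1 : ∀ r, (ℓ r).eval 1 = MvPolynomial.eval b r := by
    intro r
    have : (aeval (1 : K) : K[X] →ₐ[K] K).comp ℓ = MvPolynomial.aeval b :=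
      MvPolynomial.algHom_ext fun j => by simp [ℓ]
    have h2 := AlgHom.congr_fun this r
    rw [MvPolynomial.aeval_eq_eval, AlgHom.comp_apply, coe_aeval_eq_eval] at h2
    exact h2
  obtain ⟨j₀, hj₀⟩ : ∃ j₀, b j₀ - c₀ j₀ ≠ 0 := by
    by_contra hcon
    push Not at hcon
    have h1 : b = c₀ := funext fun j => sub_eq_zero.1 (hcon j)
    apply hb
    rw [h1, ← hPG]
    obtain ⟨w, hw⟩ := Ideal.mem_span_singleton'.1 hrg
    rw [← hw, map_mul, hPg, mul_zero]
  let t₀ : R := MvPolynomial.C (b j₀ - c₀ j₀)⁻¹ * (MvPolynomial.X j₀ - MvPolynomial.C (c₀ j₀))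
  have ht₀ : ℓ t₀ = X := by
    have h1 : ∀ z : K, ℓ (MvPolynomial.C z) = C z := fun z => ℓ.commutes z
    simp only [t₀, map_mul, map_sub, h1]
    have h2 : ℓ (MvPolynomial.X j₀) = C (c₀ j₀) + C (b j₀ - c₀ j₀) * X :=
      MvPolynomial.aeval_X _ _
    rw [h2, add_sub_cancel_left, ← mul_assoc, ← C_mul, inv_mul_cancel₀ hj₀, C_1, one_mul]
  have hker : (RingHom.ker ℓ) ≤ (RingHom.ker P).comap (algebraMap R A) := by
    intro z hz
    rw [Ideal.mem_comap, RingHom.mem_ker, hGR, hPG, ← hℓ0, (RingHom.mem_ker).1 hz, eval_zero]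
  have hkp : (RingHom.ker ℓ).IsPrime := RingHom.ker_isPrime _
  have hmp : (RingHom.ker P).IsPrime := RingHom.ker_isPrime _
  have hmo : (RingHom.ker P).LiesOver ((RingHom.ker P).comap (algebraMap R A)) := ⟨rfl⟩
  obtain ⟨𝔓, h𝔓le, h𝔓p, h𝔓o⟩ := Ideal.exists_ideal_le_liesOver_of_le (p := RingHom.ker ℓ)
    (RingHom.ker P) hker
  have h𝔓 : ∀ z : R, G z ∈ 𝔓 ↔ ℓ z = 0 := by
    intro z
    rw [← RingHom.mem_ker, h𝔓o.over, Ideal.mem_comap]
    exact Iff.rfl
  -- the curve
  set A₁ := A ⧸ 𝔓 with hA₁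
  let π : A →ₐ[K] A₁ := Ideal.Quotient.mkₐ K 𝔓
  have hπ : ∀ a, π a = 0 ↔ a ∈ 𝔓 := fun a => Ideal.Quotient.eq_zero_iff_mem
  have hπs : Function.Surjective π := Ideal.Quotient.mk_surjective
  set t : A₁ := π (G t₀) with ht
  have hπG : ∀ z : R, π (G z) = aeval t (ℓ z) := by
    intro z
    have h1 : aeval t (ℓ z) = π (G (aeval t₀ (ℓ z))) := by
      rw [ht, aeval_algHom_apply, aeval_algHom_apply]
    rw [h1, ← sub_eq_zero, ← map_sub, ← map_sub, hπ, h𝔓, map_sub, ← aeval_algHom_apply, ht₀,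
      aeval_X_left_apply, sub_self]
  have hP𝔓 : ∀ a ∈ 𝔓, P a = 0 := fun a ha => h𝔓le ha
  let P₁ : A₁ →ₐ[K] K := Ideal.Quotient.liftₐ 𝔓 P hP𝔓
  have hP₁ : ∀ a, P₁ (π a) = P a := fun a => rfl
  obtain ⟨ψ₁, h1, h2, s, hs, h3⟩ := curve_points (k := k) hK (m := m) (c := c) t (fun j => π (u j))
    (by
      intro y
      obtain ⟨a, rfl⟩ := hπs y
      obtain ⟨w, hw⟩ := hspan a
      refine ⟨fun j => ℓ (w j), ?_⟩
      rw [hw, map_sum]
      exact Finset.sum_congr rfl fun j _ => by rw [map_mul, hπG])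
    (by
      intro j k
      refine ⟨fun l => ℓ (q j k l), ?_, ?_⟩
      · rw [← map_mul, hq j k, map_sum]
        exact Finset.sum_congr rfl fun j _ => by rw [map_mul, hπG]
      · intro l
        have h4 := MvPolynomial.aeval_natDegree_le (q j k l) (hqc j k l)
          (fun j => C (c₀ j) + C (b j - c₀ j) * X) (n := 1) (by
            intro i
            refine (natDegree_add_le _ _).trans (max_le ?_ ?_)
            · rw [natDegree_C]; exact Nat.zero_le _
            · exact (natDegree_C_mul_le _ _).trans natDegree_X_le)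
        rwa [mul_one] at h4)
    (by
      intro p hp
      have h1 : aeval t p = π (G (aeval t₀ p)) := by
        rw [ht, aeval_algHom_apply, aeval_algHom_apply]
      rw [h1, hπ, h𝔓, ← aeval_algHom_apply, ht₀, aeval_X_left_apply] at hp
      exact hp)
    P₁ (by rw [ht, hP₁, hPG, ← hℓ0, ht₀, eval_X]) (fun i => π (x i))
    (fun i => by rw [hP₁]; exact hx i) (π g)
    (by
      intro h
      rw [hπ] at h
      obtain ⟨w, hw⟩ := Ideal.mem_span_singleton'.1 hrg
      have h4 : G r ∈ 𝔓 := by rw [← hw]; exact Ideal.mul_mem_left _ _ h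
      rw [h𝔓] at h4
      apply hb
      rw [← hℓ1, h4, eval_zero])
  exact ⟨ψ₁.comp π, h1, h2, s, hs.trans (le_max_right _ _), fun a => h3 (π a)⟩

end Vale.Agent.P002.H85
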