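import Vale.Agent.P002.H85.JKK
import Vale.Agent.P002.H85.Variety

/-!
# Integral points of bounded degree on an affine variety with one integral point
-/

namespace Vale.Agent.P002.H85

open MvPolynomial
open Vale.Agent.P002.H306 (KK)

theorem exists_lift {E T σ : Type} [Field E] [Algebra E ℂ] [CommRing T] [Algebra E T]
    (X : σ → ℂ) (y : σ → T) (h : ∀ p : MvPolynomial σ E, aeval X p = 0 → aeval y p = 0) :
    ∃ ψ : (aeval X : MvPolynomial σ E →ₐ[E] ℂ).range →ₐ[E] T,
      ∀ p, ψ ⟨aeval X p, p, rfl⟩ = aeval y p := by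
  let f := (aeval X : MvPolynomial σ E →ₐ[E] ℂ).rangeRestrict
  have hf : Function.Surjective f := AlgHom.rangeRestrict_surjective _
  let e := Ideal.quotientKerAlgEquivOfSurjective hf
  have h' : ∀ p : MvPolynomial σ E, p ∈ RingHom.ker f → (aeval y : MvPolynomial σ E →ₐ[E] T) p = 0 := by
    intro p hp
    apply h
    exact congrArg Subtype.val hp
  refine ⟨(Ideal.Quotient.liftₐ (RingHom.ker f) (aeval y) h').comp e.symm.toAlgHom, fun p => ?_⟩
  have h1 : e.symm ⟨aeval X p, p, rfl⟩ = Ideal.Quotient.mk _ p := by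
    rw [AlgEquiv.symm_apply_eq]
    rfl
  change Ideal.Quotient.liftₐ (RingHom.ker f) (aeval y) h' (e.symm ⟨aeval X p, p, rfl⟩) = _
  rw [h1]
  rfl

theorem den_of_algebraic {K : Type*} [Field K] [Algebra ℚ K] [Algebra.IsAlgebraic ℚ K] : Den K := by
  intro x
  have h1 : IsAlgebraic ℤ x :=
    (IsFractionRing.isAlgebraic_iff ℤ ℚ K).2 (Algebra.IsAlgebraic.isAlgebraic x)
  obtain ⟨y, hy, hya⟩ := h1.exists_integral_multiple
  refine ⟨y.natAbs, Int.natAbs_ne_zero.2 hy, ?_⟩
  rcases Int.natAbs_eq y with h | h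
  · have h2 : ((y.natAbs : ℕ) : K) * x = y • x := by
      rw [zsmul_eq_mul]
      congr 1
      conv_rhs => rw [h]
      simp
    rw [h2]
    exact hya
  · have h2 : ((y.natAbs : ℕ) : K) * x = -(y • x) := by
      rw [zsmul_eq_mul, ← neg_mul]
      congr 1
      conv_rhs => rw [h]
      simp
    rw [h2]
    exact hya.neg

theorem aeval_eq_map {E σ : Type} [Field E] [Algebra E ℂ] (x : σ → ℂ) (p : MvPolynomial σ E) :
    aeval x p = eval x (map (algebraMap E ℂ) p) := by
  rw [eval_map, aeval_def]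

/-- the field generated by the coordinates of a homomorphism with small image -/
theorem exists_field (K : IntermediateField ℚ ℂ) [FiniteDimensional ℚ K] {A : Type} [CommRing A]
    [Algebra K A] (ψ : A →ₐ[K] ℂ) (s : Finset ℂ)
    (hs : ∀ a, ψ a ∈ Submodule.span K (s : Set ℂ)) :
    ∃ L : IntermediateField ℚ ℂ, FiniteDimensional ℚ L ∧
      Module.finrank ℚ L ≤ Module.finrank ℚ K * s.card ∧ ∀ a, ψ a ∈ L := by
  have hsub : Subalgebra.toSubmodule ψ.range ≤ Submodule.span K (s : Set ℂ) := by
    rintro _ ⟨a, rfl⟩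
    exact hs a
  have hfin : Module.Finite K (Submodule.span K (s : Set ℂ)) :=
    FiniteDimensional.span_finset K s
  have hfin2 : FiniteDimensional K (Subalgebra.toSubmodule ψ.range) :=
    Submodule.finiteDimensional_of_le hsub
  have halg : ∀ x ∈ (ψ.range : Set ℂ), IsAlgebraic K x := by
    intro x hx
    have h3 : FiniteDimensional K ψ.range := hfin2
    have h4 : IsAlgebraic K (⟨x, hx⟩ : ψ.range) := Algebra.IsAlgebraic.isAlgebraic _
    exact (h4.algebraMap : IsAlgebraic K (algebraMap ψ.range ℂ ⟨x, hx⟩))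
  have hL₀ := IntermediateField.adjoin_toSubalgebra_of_isAlgebraic halg
  let L₀ : IntermediateField K ℂ := IntermediateField.adjoin K (ψ.range : Set ℂ)
  have hL₀' : L₀.toSubalgebra = ψ.range := by
    rw [hL₀, Algebra.adjoin_eq]
  have e : L₀.toSubalgebra = ψ.range := hL₀'
  have hfd0 : FiniteDimensional K L₀.toSubalgebra := by
    rw [e]; exact hfin2
  have hfd : FiniteDimensional K L₀ := hfd0
  have hrank : Module.finrank K L₀ ≤ s.card := by
    have h1 : Module.finrank K L₀ = Module.finrank K (Subalgebra.toSubmodule ψ.range) := by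
      change Module.finrank K L₀.toSubalgebra = _
      rw [e]
      rfl
    rw [h1]
    exact (Submodule.finrank_mono hsub).trans (finrank_span_finset_le_card s)
  refine ⟨L₀.restrictScalars ℚ, ?_, ?_, ?_⟩
  · change FiniteDimensional ℚ L₀
    exact FiniteDimensional.trans ℚ K L₀
  · change Module.finrank ℚ L₀ ≤ _
    rw [← Module.finrank_mul_finrank ℚ K L₀]
    exact Nat.mul_le_mul_left _ hrank
  · intro a
    change ψ a ∈ L₀
    exact IntermediateField.subset_adjoin K _ ⟨a, rfl⟩

end Vale.Agent.P002.H85
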