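import Vale.Agent.P002.H85.Main1

/-!
# Integral points of bounded degree on an affine variety over the algebraic numbers
-/

namespace Vale.Agent.P002.H85

open MvPolynomial
open Vale.Agent.P002.H306 (KK)

theorem isIntegral_KK (z : KK) : IsIntegral ℚ (z : ℂ) :=
  (mem_algebraicClosure_iff.1 z.2).isIntegral

/-- the values of the polynomials over the algebraic numbers are algebraic over the values of the
polynomials over `K` -/
theorem algebraic_range (K : IntermediateField ℚ ℂ) {σ : Type} (X : σ → ℂ)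
    (h : MvPolynomial σ KK) :
    IsIntegral (aeval X : MvPolynomial σ K →ₐ[K] ℂ).range (aeval X h) := by
  induction h using MvPolynomial.induction_on with
  | C a =>
    rw [aeval_C]
    exact (isIntegral_KK a).tower_top (A := (aeval X : MvPolynomial σ K →ₐ[K] ℂ).range)
  | add p q hp hq =>
    rw [map_add]
    exact hp.add hq
  | mul_X p i hp =>
    rw [map_mul, aeval_X]
    refine hp.mul ?_
    have h1 : X i ∈ (aeval X : MvPolynomial σ K →ₐ[K] ℂ).range := ⟨MvPolynomial.X i, by simp⟩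
    exact isIntegral_algebraMap (x := (⟨X i, h1⟩ : (aeval X : MvPolynomial σ K →ₐ[K] ℂ).range))

theorem points_exist {σ : Type} [Finite σ] (X₁ x₀ : σ → ℂ) (hx₀ : ∀ i, IsIntegral ℤ (x₀ i))
    (h₀ : ∀ p : MvPolynomial σ KK, aeval X₁ p = 0 → aeval x₀ p = 0) :
    ∃ D : ℕ, ∀ h : MvPolynomial σ KK, aeval X₁ h ≠ 0 → ∃ x : σ → ℂ,
      (∀ p : MvPolynomial σ KK, aeval X₁ p = 0 → aeval x p = 0) ∧ aeval x h ≠ 0 ∧
      (∀ i, IsIntegral ℤ (x i)) ∧ ∃ L : IntermediateField ℚ ℂ, FiniteDimensional ℚ L ∧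
        Module.finrank ℚ L ≤ D ∧ ∀ i, x i ∈ L := by
  classical
  have := Fintype.ofFinite σ
  -- the number field
  obtain ⟨S, hS⟩ : (RingHom.ker (aeval X₁ : MvPolynomial σ KK →ₐ[KK] ℂ)).FG :=
    IsNoetherian.noetherian _
  let T : Finset ℂ := (S.biUnion fun p => p.support.image fun m => ((coeff m p : KK) : ℂ)) ∪
    Finset.univ.image x₀
  have hTint : ∀ z ∈ T, IsIntegral ℚ z := by
    intro z hz
    rcases Finset.mem_union.1 hz with hz | hz
    · obtain ⟨p, -, hz⟩ := Finset.mem_biUnion.1 hz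
      obtain ⟨m, -, rfl⟩ := Finset.mem_image.1 hz
      exact isIntegral_KK _
    · obtain ⟨i, -, rfl⟩ := Finset.mem_image.1 hz
      exact (hx₀ i).tower_top
  let K : IntermediateField ℚ ℂ := IntermediateField.adjoin ℚ (T : Set ℂ)
  have hKfd : FiniteDimensional ℚ K :=
    Vale.Agent.P002.H306.exists_nf _ T.finite_toSet fun z hz => hTint z hz
  have hKK : K ≤ KK := by
    intro z hz
    have h1 : IsAlgebraic ℚ (⟨z, hz⟩ : K) := Algebra.IsAlgebraic.isAlgebraic _
    exact mem_algebraicClosure_iff.2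
      (h1.algebraMap : IsAlgebraic ℚ (algebraMap K ℂ ⟨z, hz⟩))
  have hTK : ∀ z ∈ T, z ∈ K := fun z hz => IntermediateField.subset_adjoin _ _ hz
  -- descent of polynomials
  have hdesc : ∀ p ∈ S, ∃ p' : MvPolynomial σ K, map (algebraMap K ℂ) p' =
      map (algebraMap KK ℂ) p := by
    intro p hp
    have h1 : map (algebraMap KK ℂ) p ∈ Set.range (map (σ := σ) (algebraMap K ℂ)) := by
      rw [mem_range_map_iff_coeffs_subset]
      refine (coe_coeffs_map _ _).trans ?_
      rintro _ ⟨c, hc, rfl⟩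
      rw [Finset.mem_coe, mem_coeffs_iff] at hc
      obtain ⟨m, hm, rfl⟩ := hc
      have h2 : ((coeff m p : KK) : ℂ) ∈ K := hTK _ (Finset.mem_union_left _
        (Finset.mem_biUnion.2 ⟨p, hp, Finset.mem_image_of_mem _ hm⟩))
      exact ⟨⟨_, h2⟩, rfl⟩
    exact h1
  have hlift : ∀ x : σ → ℂ, (∀ p : MvPolynomial σ K, aeval X₁ p = 0 → aeval x p = 0) →
      ∀ p : MvPolynomial σ KK, aeval X₁ p = 0 → aeval x p = 0 := by
    intro x hx p hp
    have h1 : RingHom.ker (aeval X₁ : MvPolynomial σ KK →ₐ[KK] ℂ) ≤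
        RingHom.ker (aeval x : MvPolynomial σ KK →ₐ[KK] ℂ) := by
      rw [← hS, Submodule.span_le]
      intro q hq
      obtain ⟨q', hq'⟩ := hdesc q hq
      have h2 : ∀ y : σ → ℂ, aeval y q = aeval y q' := fun y => by
        rw [aeval_eq_map, aeval_eq_map, hq']
      have h3 : q ∈ RingHom.ker (aeval X₁ : MvPolynomial σ KK →ₐ[KK] ℂ) := by
        rw [← hS]
        exact Submodule.subset_span hq
      rw [RingHom.mem_ker, h2] at h3
      change aeval x q = 0
      rw [h2]
      exact hx _ h3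
    exact h1 hp
  have hinc : ∀ (p : MvPolynomial σ K) (y : σ → ℂ),
      aeval y (map (IntermediateField.inclusion hKK).toRingHom p) = aeval y p := by
    intro p y
    rw [aeval_eq_map, aeval_eq_map, map_map]
    rfl
  -- the integral point
  have hx₀K : ∀ i, x₀ i ∈ K := fun i => hTK _ (Finset.mem_union_right _
    (Finset.mem_image_of_mem _ (Finset.mem_univ i)))
  obtain ⟨P, hP⟩ := exists_lift (E := K) X₁ (fun i => (⟨x₀ i, hx₀K i⟩ : K)) (by
    intro p hp
    have h1 : aeval x₀ p = 0 := by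
      rw [← hinc]
      apply h₀
      rw [hinc]
      exact hp
    have h2 : algebraMap K ℂ (aeval (fun i => (⟨x₀ i, hx₀K i⟩ : K)) p) = aeval x₀ p := by
      rw [← aeval_algebraMap_apply]
      rfl
    rw [h1] at h2
    exact (algebraMap K ℂ).injective (h2.trans (map_zero _).symm))
  let A := (aeval X₁ : MvPolynomial σ K →ₐ[K] ℂ).range
  have hft : Algebra.FiniteType K A := by
    refine Algebra.FiniteType.of_surjective (A := MvPolynomial σ K)
      (aeval X₁ : MvPolynomial σ K →ₐ[K] ℂ).rangeRestrict ?_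
    exact AlgHom.rangeRestrict_surjective _
  obtain ⟨n₀, ⟨e⟩⟩ := Finite.exists_equiv_fin σ
  let a : MvPolynomial σ K → A := fun p => ⟨aeval X₁ p, p, rfl⟩
  have hden : Den K := den_of_algebraic
  obtain ⟨D₀, hD₀⟩ := variety_points (k := ℂ) hden P (fun i : Fin n₀ => a (X (e.symm i))) (by
    intro i
    rw [hP, aeval_X]
    exact (isIntegral_algebraMap_iff (algebraMap K ℂ).injective).1 (hx₀ _))
  refine ⟨Module.finrank ℚ K * D₀, fun h hh => ?_⟩
  -- a multiple of `h`
  have halg : IsAlgebraic A (aeval X₁ h) := (algebraic_range K X₁ h).isAlgebraic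
  obtain ⟨t, ht, g, hg0, hg⟩ := halg.exists_nonzero_eq_adjoin_mul
    (mem_nonZeroDivisors_of_ne_zero hh)
  obtain ⟨b, hb⟩ : ∃ b : MvPolynomial σ KK, aeval X₁ b = t := by
    clear hg
    induction ht using Algebra.adjoin_induction with
    | mem x hx =>
      rw [Set.mem_singleton_iff.1 hx]
      exact ⟨h, rfl⟩
    | algebraMap r =>
      obtain ⟨_, p, rfl⟩ := r
      exact ⟨map (IntermediateField.inclusion hKK).toRingHom p, hinc p X₁⟩
    | add x y _ _ hx hy =>
      obtain ⟨p, rfl⟩ := hx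
      obtain ⟨q, rfl⟩ := hy
      exact ⟨p + q, map_add _ _ _⟩
    | mul x y _ _ hx hy =>
      obtain ⟨p, rfl⟩ := hx
      obtain ⟨q, rfl⟩ := hy
      exact ⟨p * q, map_mul _ _ _⟩
  obtain ⟨ψ, hψ1, hψ2, s, hs, hψs⟩ := hD₀ g hg0
  have hx : ∀ p : MvPolynomial σ K, aeval (fun i => ψ (a (X i))) p = ψ (a p) := by
    intro p
    have h1 : (ψ.comp (aeval X₁ : MvPolynomial σ K →ₐ[K] ℂ).rangeRestrict) =
        aeval (fun i => ψ (a (X i))) := by
      apply algHom_ext
      intro i
      rw [aeval_X]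
      rfl
    rw [← h1]
    rfl
  have hxlift := hlift (fun i => ψ (a (X i))) (by
    intro p hp
    rw [hx]
    have h1 : a p = 0 := Subtype.ext hp
    rw [h1, map_zero])
  refine ⟨fun i => ψ (a (X i)), hxlift, ?_, ?_, ?_⟩
  · obtain ⟨_, g', rfl⟩ := g
    have h1 := hxlift (h * b - map (IntermediateField.inclusion hKK).toRingHom g') (by
      rw [map_sub, map_mul, hb, hinc, hg]
      exact sub_self _)
    rw [map_sub, map_mul, hinc, hx, sub_eq_zero] at h1
    intro h2
    rw [h2, zero_mul] at h1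
    exact hψ2 h1.symm
  · intro i
    have := hψ1 (e i)
    simpa only [Equiv.symm_apply_apply] using this
  · obtain ⟨L, hL, hLr, hLm⟩ := exists_field K ψ s hψs
    exact ⟨L, hL, hLr.trans (Nat.mul_le_mul_left _ hs), fun i => hLm _⟩

end Vale.Agent.P002.H85
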