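import Vale.Agent.P002.H85.Sol
import Vale.Agent.P002.H85.Constr
import Vale.Agent.P002.H306.Fin

/-!
# Specializations of a representation satisfy the conditions defining `YW`
-/

namespace Vale.Agent.P002.H85

open Matrix Vale.Agent.P002R.Orb Vale.Agent.P002.H326J Vale.Agent.P002.H252
open Vale.Agent.P002.H306 (KK)

variable {ι : Type} {r : ℕ}

/-- conjugate over `GL_r`, hence over `SL_r` -/
theorem isConj_of_mul {A B : SpecialLinearGroup (Fin r) ℂ}
    (U : Matrix (Fin r) (Fin r) ℂ) (hU : U.det ≠ 0) (h : U * A.1 = B.1 * U) : IsConj A B := by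
  rcases Nat.eq_zero_or_pos r with hr | hr
  · subst hr
    have : A = B := Subtype.ext (Matrix.ext fun i => i.elim0)
    rw [this]
  · obtain ⟨c, hc⟩ := IsAlgClosed.exists_pow_nat_eq U.det hr
    have hc0 : c ≠ 0 := by
      rintro rfl
      rw [zero_pow hr.ne'] at hc
      exact hU hc.symm
    have h1 : (c⁻¹ • U).det = 1 := by
      rw [Matrix.det_smul, Fintype.card_fin, inv_pow, hc, inv_mul_cancel₀ hU]
    obtain ⟨V, hV⟩ : ∃ V : SpecialLinearGroup (Fin r) ℂ, V.1 = c⁻¹ • U := ⟨⟨_, h1⟩, rfl⟩
    refine isConj_iff.2 ⟨V, ?_⟩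
    rw [mul_inv_eq_iff_eq_mul]
    apply Subtype.ext
    change V.1 * A.1 = B.1 * V.1
    rw [hV, smul_mul_assoc, h, mul_smul_comm]

theorem lift_map {A A' : Type*} [CommRing A] [CommRing A'] (φ : A →+* A')
    (X : ι → SpecialLinearGroup (Fin r) A) (w : FreeGroup ι) :
    FreeGroup.lift (fun p => SpecialLinearGroup.map φ (X p)) w =
      SpecialLinearGroup.map φ (FreeGroup.lift X w) := by
  have h : FreeGroup.lift (fun p => SpecialLinearGroup.map φ (X p)) =
      (SpecialLinearGroup.map φ).comp (FreeGroup.lift X) := by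
    apply FreeGroup.ext_hom
    intro p
    rw [FreeGroup.lift_apply_of, MonoidHom.comp_apply, FreeGroup.lift_apply_of]
  rw [h]
  rfl

theorem map_sl_injective {A A' : Type*} [CommRing A] [CommRing A'] (φ : A →+* A')
    (hφ : Function.Injective φ) :
    Function.Injective (SpecialLinearGroup.map (n := Fin r) φ) := by
  intro X Y h
  apply Subtype.ext
  ext i j
  have h1 := congrArg (fun M : SpecialLinearGroup (Fin r) A' => M.1 i j) h
  exact hφ h1

theorem open_spec {R : Set (FreeGroup ι)} {s : ℕ} {w : Fin s → FreeGroup ι}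
    {C : Fin s → SpecialLinearGroup (Fin r) ℂ} (J : Fin s → SpecialLinearGroup (Fin r) KK)
    (hJ : ∀ k, IsConj (C k) (SpecialLinearGroup.map (algebraMap KK ℂ) (J k)))
    (B : Subalgebra KK ℂ) (X : ι → SpecialLinearGroup (Fin r) B)
    (hX : (fun p => SpecialLinearGroup.map (B.val : B →+* ℂ) (X p)) ∈ YW R w C) :
    ∃ h : B, h ≠ 0 ∧ ∀ φ : B →ₐ[KK] ℂ, φ h ≠ 0 →
      (fun p => SpecialLinearGroup.map (φ : B →+* ℂ) (X p)) ∈ YW R w C := by
  classical
  obtain ⟨⟨hrel, hss⟩, hc⟩ := hX
  have hval : Function.Injective (B.val : B →+* ℂ) := Subtype.val_injective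
  obtain ⟨d, hd, hE, u, hu⟩ := (crit (matHom _)).1 ((ss_iff _).1 hss)
  have hinf : Infinite B := Infinite.of_injective (fun n : ℕ => (n : B)) fun a b h => by
    have h1 : ((a : B) : ℂ) = ((b : B) : ℂ) := congrArg Subtype.val h
    exact_mod_cast h1
  -- the conjugating matrices
  have hP : ∀ k, ∃ P' : Matrix (Fin r) (Fin r) B, P'.det ≠ 0 ∧
      (FreeGroup.lift X (w k)).1 * P' = P' * (J k).1.map (algebraMap KK B) := by
    intro k
    obtain ⟨g, hg⟩ := isConj_iff.1 ((hJ k).symm.trans (hc k))
    refine exists_sol (F := ℂ) (by exact Subtype.val_injective) _ _ g.1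
      (by rw [g.2]; exact one_ne_zero) ?_
    have h1 : g * SpecialLinearGroup.map (algebraMap KK ℂ) (J k) =
        FreeGroup.lift (fun p => SpecialLinearGroup.map (B.val : B →+* ℂ) (X p)) (w k) * g := by
      rw [← hg]; group
    rw [lift_map] at h1
    have h2 : g.1 * (SpecialLinearGroup.map (algebraMap KK ℂ) (J k)).1 =
        (SpecialLinearGroup.map (B.val : B →+* ℂ) (FreeGroup.lift X (w k))).1 * g.1 :=
      congrArg Subtype.val h1
    have h3 : ((J k).1.map (algebraMap KK B)).map (algebraMap B ℂ) =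
        (SpecialLinearGroup.map (algebraMap KK ℂ) (J k)).1 := by
      ext i j
      rfl
    rw [h3]
    exact h2.symm
  choose P' hP'0 hP' using hP
  obtain ⟨g0, hg0⟩ : ∃ g0 : Matrix (Fin d) (Fin d) B,
      g0 = fun i j => (FreeGroup.lift X (u i * u j)).1.trace := ⟨_, rfl⟩
  have hgram : ∀ φ : B →+* ℂ, (gramW (matHom fun p => SpecialLinearGroup.map φ (X p)) u).det =
      φ g0.det := by
    intro φ
    rw [RingHom.map_det]
    congr 1
    ext i j
    rw [gramW, matHom_apply, lift_map, hg0]
    change ∑ l, φ ((FreeGroup.lift X (u i * u j)).1 l l) =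
      φ (∑ l, (FreeGroup.lift X (u i * u j)).1 l l)
    rw [map_sum]
  refine ⟨g0.det * ∏ k, (P' k).det, mul_ne_zero ?_ (Finset.prod_ne_zero_iff.2 fun k _ => hP'0 k),
    fun φ hφ => ⟨⟨?_, ?_⟩, ?_⟩⟩
  · intro h0
    apply hu
    rw [hgram, h0, map_zero]
  · intro x hx
    have h1 := hrel x hx
    rw [lift_map] at h1
    have h2 : FreeGroup.lift X x = 1 := map_sl_injective _ hval (by rw [h1, map_one])
    rw [lift_map, h2, map_one]
  · rw [ss_iff, crit]
    refine ⟨d, hd, fun v hv => ?_, u, ?_⟩
    · rw [indep_iff_minor'] at hv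
      obtain ⟨c, hc'⟩ := hv
      have h1 := hE v
      rw [indep_iff_minor'] at h1
      apply h1
      refine ⟨c, fun h0 => hc' ?_⟩
      have hdet : ∀ φ : B →+* ℂ, (Matrix.of fun a b =>
          matHom (fun p => SpecialLinearGroup.map φ (X p)) (v a) (c b).1 (c b).2).det =
          φ (Matrix.of fun a b => (FreeGroup.lift X (v a)).1 (c b).1 (c b).2).det := by
        intro φ
        rw [RingHom.map_det]
        congr 1
        ext i j
        rw [Matrix.of_apply, matHom_apply, lift_map]
        rfl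
      rw [hdet] at h0 ⊢
      have h2 := hval (h0.trans (map_zero _).symm)
      rw [h2, map_zero]
    · rw [hgram]
      intro h0
      apply hφ
      rw [map_mul]
      change (φ : B →+* ℂ) _ * _ = _
      rw [h0, zero_mul]
  · intro k
    refine (hJ k).trans ?_
    refine isConj_of_mul ((P' k).map φ) ?_ ?_
    · have h1 : ((P' k).map φ).det = φ (P' k).det := by
        change _ = (φ : B →+* ℂ) _
        rw [RingHom.map_det]
        rfl
      rw [h1]
      intro h0
      apply hφ
      rw [map_mul, map_prod, Finset.prod_eq_zero (Finset.mem_univ k) h0, mul_zero]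
    · have h1 := congrArg (fun M => M.map (φ : B →+* ℂ)) (hP' k)
      simp only [Matrix.map_mul] at h1
      rw [lift_map]
      have h2 : ((J k).1.map (algebraMap KK B)).map (φ : B →+* ℂ) =
          (SpecialLinearGroup.map (algebraMap KK ℂ) (J k)).1 := by
        ext i j
        exact φ.commutes _
      rw [h2] at h1
      exact h1.symm

end Vale.Agent.P002.H85
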