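import Mathlib

/-!
# Solutions of linear systems over subrings
-/

namespace Vale.Agent.P002.H85

open Matrix

theorem exists_sol {B F n : Type} [CommRing B] [IsDomain B] [Infinite B] [Field F] [Algebra B F]
    [Fintype n] [DecidableEq n]
    (hinj : Function.Injective (algebraMap B F)) (M J : Matrix n n B) (P : Matrix n n F)
    (hP : P.det ≠ 0) (h : M.map (algebraMap B F) * P = P * J.map (algebraMap B F)) :
    ∃ P' : Matrix n n B, P'.det ≠ 0 ∧ M * P' = P' * J := by
  classical
  have hfs : FaithfulSMul B F := (faithfulSMul_iff_algebraMap_injective B F).2 hinj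
  let E := FractionRing B
  let _ : Algebra E F := FractionRing.liftAlgebra B F
  have htower : IsScalarTower B E F := inferInstance
  let c := Module.Basis.ofVectorSpace E F
  let Pa : Module.Basis.ofVectorSpaceIndex E F → Matrix n n E := fun a =>
    Matrix.of fun i j => c.repr (P i j) a
  let T : Finset (Module.Basis.ofVectorSpaceIndex E F) :=
    Finset.univ.biUnion fun p : n × n => (c.repr (P p.1 p.2)).support
  have hPT : ∀ i j, P i j = ∑ a ∈ T, c.repr (P i j) a • c a := by
    intro i j
    conv_lhs => rw [← c.linearCombination_repr (P i j)]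
    rw [Finsupp.linearCombination_apply, Finsupp.sum]
    refine Finset.sum_subset ?_ ?_
    · intro a ha
      exact Finset.mem_biUnion.2 ⟨(i, j), Finset.mem_univ _, ha⟩
    · intro a _ ha
      rw [Finsupp.notMem_support_iff.1 ha, zero_smul]
  have hMP : ∀ a, M.map (algebraMap B E) * Pa a = Pa a * J.map (algebraMap B E) := by
    intro a
    ext i j
    have h1 := congrFun (congrFun h i) j
    have h2 := congrArg (fun z => c.repr z a) h1
    simp only [Matrix.mul_apply, Matrix.map_apply, map_sum, Finsupp.coe_finsetSum,
      Finset.sum_apply] at h2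
    simp only [Matrix.mul_apply, Matrix.map_apply, Pa, Matrix.of_apply]
    have h3 : ∀ (b : B) (z : F), c.repr (algebraMap B F b * z) a =
        algebraMap B E b * c.repr z a := by
      intro b z
      rw [IsScalarTower.algebraMap_apply B E F, ← Algebra.smul_def, map_smul, Finsupp.smul_apply,
        smul_eq_mul]
    have h4 : ∀ (b : B) (z : F), c.repr (z * algebraMap B F b) a =
        c.repr z a * algebraMap B E b := by
      intro b z
      rw [mul_comm, h3, mul_comm]
    simpa only [h3, h4] using h2
  -- the determinant
  let Δ : MvPolynomial T E := (Matrix.of fun i j =>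
    ∑ a : T, MvPolynomial.X a * MvPolynomial.C (Pa a.1 i j)).det
  have hΔ : ∀ {R : Type} [CommRing R] [Algebra E R] (t : T → R),
      MvPolynomial.aeval t Δ =
        (Matrix.of fun i j => ∑ a : T, t a * algebraMap E R (Pa a.1 i j)).det := by
    intro R _ _ t
    change (MvPolynomial.aeval t : MvPolynomial T E →ₐ[E] R).toRingHom _ = _
    rw [RingHom.map_det]
    congr 1
    ext i j
    simp only [RingHom.mapMatrix_apply, Matrix.map_apply, Matrix.of_apply, map_sum, map_mul,
      AlgHom.toRingHom_eq_coe, RingHom.coe_coe, MvPolynomial.aeval_X, MvPolynomial.aeval_C]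
  have hne : Δ ≠ 0 := by
    intro h0
    apply hP
    have h1 := hΔ (R := F) (fun a => c a.1)
    rw [h0, map_zero] at h1
    rw [h1]
    congr 1
    ext i j
    rw [Matrix.of_apply, hPT i j, ← Finset.sum_coe_sort T]
    refine Finset.sum_congr rfl fun a _ => ?_
    rw [Algebra.smul_def, mul_comm]
    rfl
  have hinf : Infinite E := Infinite.of_injective _ (IsFractionRing.injective B E)
  obtain ⟨t, ht⟩ : ∃ t : T → E, MvPolynomial.eval t Δ ≠ 0 := by
    by_contra hcon
    push Not at hcon
    exact hne (MvPolynomial.funext fun t => by rw [hcon t, map_zero])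
  let Q : Matrix n n E := ∑ a : T, t a • Pa a.1
  have hQ : Q = Matrix.of fun i j => ∑ a : T, t a * Pa a.1 i j := by
    ext i j
    simp only [Q, Matrix.sum_apply, Matrix.smul_apply, smul_eq_mul, Matrix.of_apply]
  have hQdet : Q.det ≠ 0 := by
    have h1 := hΔ (R := E) t
    have h3 : MvPolynomial.aeval t Δ = MvPolynomial.eval t Δ := by
      rw [MvPolynomial.aeval_def]
      rfl
    rw [h3] at h1
    rw [hQ]
    intro h2
    apply ht
    refine h1.trans ?_
    exact h2
  have hMQ : M.map (algebraMap B E) * Q = Q * J.map (algebraMap B E) := by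
    simp only [Q]
    rw [Matrix.mul_sum, Matrix.sum_mul]
    refine Finset.sum_congr rfl fun a _ => ?_
    rw [Matrix.mul_smul, hMP, Matrix.smul_mul]
  obtain ⟨b, hb⟩ := IsLocalization.exist_integer_multiples_of_finite (nonZeroDivisors B)
    (fun p : n × n => Q p.1 p.2)
  choose q hq using hb
  have hb0 : algebraMap B E b ≠ 0 := by
    intro h0
    have h1 : (b : B) = 0 := IsFractionRing.injective B E (by rw [h0, map_zero])
    exact nonZeroDivisors.ne_zero b.2 h1
  have hP' : (Matrix.of fun i j => q (i, j)).map (algebraMap B E) = algebraMap B E b • Q := by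
    ext i j
    rw [Matrix.map_apply, Matrix.of_apply, hq (i, j), Matrix.smul_apply, smul_eq_mul]
    exact Algebra.smul_def _ _
  refine ⟨Matrix.of fun i j => q (i, j), ?_, ?_⟩
  · intro h0
    have h1 := congrArg (algebraMap B E) h0
    rw [RingHom.map_det, map_zero, RingHom.mapMatrix_apply, hP', Matrix.det_smul] at h1
    exact mul_ne_zero (pow_ne_zero _ hb0) hQdet h1
  · have h1 : (M * Matrix.of fun i j => q (i, j)).map (algebraMap B E) =
        ((Matrix.of fun i j => q (i, j)) * J).map (algebraMap B E) := by
      rw [Matrix.map_mul, Matrix.map_mul, hP', Matrix.mul_smul, hMQ, Matrix.smul_mul]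
    exact Matrix.map_injective (IsFractionRing.injective B E) h1

end Vale.Agent.P002.H85
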