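import Vale.Agent.P002.H85.Bass3
import Vale.Agent.P002.H85.ConjStab

/-!
# Integral points and integral traces
-/

namespace Vale.Agent.P002.H85

open Matrix Vale.Agent.P002R.Orb Vale.Agent.P002.H326J Vale.Agent.P002.H252 NumberField
open Vale.Agent.P002.H306 (KK)

variable {ι : Type} {r : ℕ}

/-- the entries of the value of a word are integral polynomials in the entries of the generators -/
theorem exists_word_Z (x : FreeGroup ι) :
    ∃ M : Fin r → Fin r → MvPolynomial (ι × Fin r × Fin r) ℤ,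
      ∀ (A : Type) [CommRing A] (X : ι → SpecialLinearGroup (Fin r) A) (i j : Fin r),
        (FreeGroup.lift X x).1 i j = value (M i j) X := by
  induction x using FreeGroup.induction_on with
  | C1 =>
    refine ⟨fun i j => MvPolynomial.C ((1 : Matrix (Fin r) (Fin r) ℤ) i j), fun A _ X i j => ?_⟩
    rw [map_one, value, MvPolynomial.eval₂_C]
    change (1 : Matrix (Fin r) (Fin r) A) i j = _
    rw [Matrix.one_apply, Matrix.one_apply]
    split_ifs <;> simp
  | of p =>
    refine ⟨fun i j => MvPolynomial.X (p, i, j), fun A _ X i j => ?_⟩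
    rw [FreeGroup.lift_apply_of, value, MvPolynomial.eval₂_X]
  | inv_of p _ =>
    refine ⟨fun i j => (Matrix.adjugate (Matrix.of fun a b => MvPolynomial.X (p, a, b))) i j,
      fun A _ X i j => ?_⟩
    have h1 : (FreeGroup.lift X (FreeGroup.of p)⁻¹).1 = (X p).1.adjugate := by
      rw [map_inv, FreeGroup.lift_apply_of]
      rfl
    change (FreeGroup.lift X (FreeGroup.of p)⁻¹).1 i j = _
    rw [h1]
    have h2 := RingHom.map_adjugate (MvPolynomial.eval₂Hom (algebraMap ℤ A)
      (fun p : ι × Fin r × Fin r => (X p.1).1 p.2.1 p.2.2))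
      (Matrix.of fun a b : Fin r => (MvPolynomial.X (p, a, b) : MvPolynomial (ι × Fin r × Fin r) ℤ))
    have h3 := congrFun (congrFun h2 i) j
    have h4 : (MvPolynomial.eval₂Hom (algebraMap ℤ A)
        (fun p : ι × Fin r × Fin r => (X p.1).1 p.2.1 p.2.2)).mapMatrix (Matrix.of fun a b : Fin r =>
        (MvPolynomial.X (p, a, b) : MvPolynomial (ι × Fin r × Fin r) ℤ)) = (X p).1 := by
      ext a b
      simp only [RingHom.mapMatrix_apply, Matrix.map_apply, Matrix.of_apply,
        MvPolynomial.coe_eval₂Hom, MvPolynomial.eval₂_X]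
    rw [h4] at h3
    rw [← h3]
    rfl
  | mul x y hx hy =>
    obtain ⟨M, hM⟩ := hx
    obtain ⟨M', hM'⟩ := hy
    refine ⟨fun i j => ∑ k, M i k * M' k j, fun A _ X i j => ?_⟩
    rw [map_mul]
    change ∑ k, (FreeGroup.lift X x).1 i k * (FreeGroup.lift X y).1 k j = _
    rw [value, MvPolynomial.eval₂_sum]
    refine Finset.sum_congr rfl fun k _ => ?_
    rw [MvPolynomial.eval₂_mul, hM, hM']
    rfl

/-- traces of words are invariant functions -/
theorem exists_trace_Z (R : Set (FreeGroup ι)) (x : FreeGroup ι) :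
    ∃ F : MvPolynomial (ι × Fin r × Fin r) ℤ, IsInvariant R F ∧
      ∀ X : ι → SpecialLinearGroup (Fin r) ℂ, value F X = (FreeGroup.lift X x).1.trace := by
  obtain ⟨M, hM⟩ := exists_word_Z (ι := ι) (r := r) x
  have h1 : ∀ (A : Type) [CommRing A] (X : ι → SpecialLinearGroup (Fin r) A),
      value (∑ i, M i i) X = (FreeGroup.lift X x).1.trace := by
    intro A _ X
    rw [value, MvPolynomial.eval₂_sum, Matrix.trace]
    refine Finset.sum_congr rfl fun i _ => ?_
    rw [Matrix.diag_apply, hM]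
    rfl
  refine ⟨∑ i, M i i, fun A _ _ X P _ => ?_, fun X => ?_⟩
  · have hA : ‹Algebra ℤ A› = Ring.toIntAlgebra A := Subsingleton.elim _ _
    subst hA
    rw [h1, h1]
    have h2 : FreeGroup.lift (fun p => P * X p * P⁻¹) =
        (MulAut.conj P).toMonoidHom.comp (FreeGroup.lift X) := by
      apply FreeGroup.ext_hom
      intro p
      rw [FreeGroup.lift_apply_of, MonoidHom.comp_apply, FreeGroup.lift_apply_of]
      rfl
    rw [h2]
    change (P * FreeGroup.lift X x * P⁻¹).1.trace = _
    have h3 : (P * FreeGroup.lift X x * P⁻¹).1 = P.1 * (FreeGroup.lift X x).1 * (P⁻¹).1 := rfl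
    rw [h3, Matrix.trace_mul_comm, ← Matrix.mul_assoc]
    have h4 : (P⁻¹).1 * P.1 = 1 := congrArg Subtype.val (inv_mul_cancel P)
    rw [h4, Matrix.one_mul]
  · exact h1 ℂ X

theorem intPoint_of_intRep {R : Set (FreeGroup ι)} {L : IntermediateField ℚ ℂ}
    {X : ι → SpecialLinearGroup (Fin r) ℂ} (hX : IsIntegralRep L X) : IsIntegralPoint R L X := by
  intro F _
  rw [← Vale.Agent.P002.H306.mem_OI_iff, value, MvPolynomial.eval₂_eq]
  refine sum_mem fun m _ => mul_mem ?_ (prod_mem fun q _ => pow_mem ?_ _)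
  · rw [eq_intCast]
    exact intCast_mem _ _
  · exact Vale.Agent.P002.H306.mem_OI_iff.2 (hX _ _ _)

theorem value_conj {R : Set (FreeGroup ι)} {F : MvPolynomial (ι × Fin r × Fin r) ℤ}
    (hF : IsInvariant R F) {X : ι → SpecialLinearGroup (Fin r) ℂ} (hX : IsRep R X)
    (g : SpecialLinearGroup (Fin r) ℂ) : value F (fun p => g * X p * g⁻¹) = value F X :=
  hF ℂ X g hX

/-- a tuple with integral entries is an integral representation over some number field -/
theorem exists_L [Finite ι] {X : ι → SpecialLinearGroup (Fin r) ℂ}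
    (hX : ∀ p i j, IsIntegral ℤ ((X p).1 i j)) :
    ∃ L : IntermediateField ℚ ℂ, FiniteDimensional ℚ L ∧ IsIntegralRep L X := by
  refine ⟨IntermediateField.adjoin ℚ (Set.range (coords X)), ?_, ?_⟩
  · refine Vale.Agent.P002.H306.exists_nf _ (Set.finite_range _) ?_
    rintro _ ⟨p, rfl⟩
    exact (hX _ _ _).tower_top
  · intro p i j
    rw [← Vale.Agent.P002.H306.mem_OI_iff]
    exact ⟨IntermediateField.subset_adjoin _ _ ⟨(p, i, j), rfl⟩, hX p i j⟩

/-- **Integral points are the semisimple representations with integral traces.** -/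
theorem integral_iff [Finite ι] {R : Set (FreeGroup ι)} {X : ι → SpecialLinearGroup (Fin r) ℂ}
    (hX : X ∈ YNone R r) :
    (∀ x, IsIntegral ℤ (FreeGroup.lift X x).1.trace) ↔
      ∃ L : IntermediateField ℚ ℂ, FiniteDimensional ℚ L ∧ IsIntegralPoint R L X := by
  constructor
  · intro h
    obtain ⟨g, hg⟩ := bass X hX.2 h
    obtain ⟨L, hL, hLX⟩ := exists_L (X := fun p => g * X p * g⁻¹) hg
    refine ⟨L, hL, fun F hF => ?_⟩
    rw [← value_conj hF hX.1 g]
    exact intPoint_of_intRep (R := R) hLX F hF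
  · rintro ⟨L, -, h⟩ x
    obtain ⟨F, hF, hFX⟩ := exists_trace_Z (r := r) R x
    obtain ⟨a, ha⟩ := h F hF
    rw [← hFX, ha]
    exact (isIntegral_algebraMap_iff (algebraMap L ℂ).injective).2 a.2

end Vale.Agent.P002.H85
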