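import Vale.Agent.P002.H85.Fin
import Vale.Agent.P002.H2.MI

/-!
# Components with one typed point
-/

namespace Vale.Agent.P002.H85

open Matrix Vale.Agent.P002R.Orb Vale.Agent.P002.H326J Vale.Agent.P002.H252 Vale.Agent.P002.H2
  NumberField

variable {ι : Type} {r : ℕ}

section main

variable [Finite ι] {R : Set (FreeGroup ι)} {s : ℕ} {w : Fin s → FreeGroup ι}
  {C : Fin s → SpecialLinearGroup (Fin r) ℂ}

/-- typed points lie in the closure of the integral points -/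
theorem typed_closure (hC : ∀ j z, IsEigenvalue (C j) z → ∃ n : ℕ, 0 < n ∧ z ^ n = 1)
    {X : ι → SpecialLinearGroup (Fin r) ℂ} (hX : X ∈ YW R w C) (hT : IsTyped R w X) :
    X ∈ closureIn R (YW R w C) (intPoints R (YW R w C)) := by
  obtain ⟨k, U, h1, h2, h3⟩ := exists_decomp_X X hX.1.2
  have h4 : ∀ a, ∃ D : TypeDatum (PresentedGroup R),
      D.Valid (fun j => PresentedGroup.mk R (w j)) ∧ HasType D X (U a) := fun a => hT (U a) (h1 a)
  choose D hD hDT using h4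
  obtain ⟨L, hL, hd⟩ := main_multi r w C hC k D hD
  refine ⟨hX, fun F _ hF => ?_⟩
  refine hd F (fun X' hX' hLX => ?_) X ⟨hX, U, hDT, h2, h3⟩
  exact hF X' ⟨hX'.1, L, hL, intPoint_of_intRep hLX⟩

theorem typed_main (hC : ∀ j z, IsEigenvalue (C j) z → ∃ n : ℕ, 0 < n ∧ z ^ n = 1) :
    ∃ D : ℕ,
      (∀ X ∈ YW R w C, IsTyped R w X → ∃ V, IsIrrComp R (YW R w C) V ∧ X ∈ V ∧
        IsDenseDeg R D V ∧ IsDenseRepDeg D V) ∧
      ((∀ V, IsIrrComp R (YW R w C) V → ∃ X ∈ V, IsTyped R w X ∧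
          ∀ V', IsIrrComp R (YW R w C) V' → X ∈ V' → V' = V) →
        IsDenseAll R (YW R w C) ∧ IsDenseDeg R D (YW R w C) ∧ IsDenseRepDeg D (YW R w C)) := by
  have hC' : ∀ j z, IsEigenvalue (C j) z → IsIntegral ℚ z := by
    intro j z hz
    obtain ⟨n, hn, hz⟩ := hC j z hz
    exact IsIntegral.of_pow hn (by rw [hz]; exact isIntegral_one)
  obtain ⟨D, h1, h2, h3, h4, h5⟩ := main (R := R) (w := w) (C := C) hC'
  have h6 : ∀ X ∈ YW R w C, IsTyped R w X → ∃ V, IsIrrComp R (YW R w C) V ∧ X ∈ V ∧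
      (intPoints R V).Nonempty := by
    intro X hX hT
    have h7 := typed_closure hC hX hT
    rw [h2] at h7
    obtain ⟨V, hV, hXV⟩ := h7
    exact ⟨V, hV.1, hXV, hV.2⟩
  have h8 : ∀ V, IsIrrComp R (YW R w C) V → (intPoints R V).Nonempty →
      IsDenseDeg R D V ∧ IsDenseRepDeg D V := by
    rintro V hV hV'
    exact h1 V hV ((good_iff hC' V).2 ⟨hV, hV'⟩).2
  refine ⟨D, fun X hX hT => ?_, fun h => ?_⟩
  · obtain ⟨V, hV, hXV, hV'⟩ := h6 X hX hT
    exact ⟨V, hV, hXV, h8 V hV hV'⟩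
  · have h9 : IsDenseAll R (YW R w C) := by
      refine h4.2 fun V hV => ?_
      obtain ⟨X, hX, hT, huniq⟩ := h V hV
      have hXY : X ∈ YW R w C := by
        rw [← hV.1] at hX
        exact hX.1
      obtain ⟨V', hV', hXV', hne⟩ := h6 X hXY hT
      rw [huniq V' hV' hXV'] at hne
      exact hne
    exact ⟨h9, h5 h9⟩

end main

end Vale.Agent.P002.H85
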